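import Vale.Agent.P047.Defs

/-!
Biased Fourier analysis on the cube: with `p(t) = ∑_S fhat f S * t^|S|` one has, for a Boolean
function of degree at most `d` and `|t| ≤ 1`, `p(t)^2 ≤ 1` and
`(1 - t^2) p'(t) ≤ d (1 - p(t)^2)`.
-/

namespace Vale.Agent.P047

open Finset

variable {n : ℕ}

lemma spin_true : spin true = 1 := by simp [spin]
lemma spin_false : spin false = -1 := by simp [spin]

/-- product weight of bias `t` -/
noncomputable def wt (t : ℝ) (x : Fin n → Bool) : ℝ := ∏ i, ((1 + t * spin (x i)) / 2)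

/-- biased character, not normalised -/
noncomputable def psi (t : ℝ) (T : Finset (Fin n)) (x : Fin n → Bool) : ℝ :=
  ∏ i ∈ T, (spin (x i) - t)

lemma psi_empty (t : ℝ) (x : Fin n → Bool) : psi t ∅ x = 1 := by simp [psi]

lemma sum_prod_bool (u : Fin n → Bool → ℝ) :
    ∑ x : Fin n → Bool, ∏ i, u i (x i) = ∏ i, (u i true + u i false) := by
  have h := Finset.prod_univ_sum (fun _ : Fin n => (Finset.univ : Finset Bool)) u
  rw [Fintype.piFinset_univ] at h
  rw [← h]
  refine Finset.prod_congr rfl fun i _ => ?_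
  simp [Fintype.sum_bool]

lemma psi_eq_prod (t : ℝ) (T : Finset (Fin n)) (x : Fin n → Bool) :
    psi t T x = ∏ i, (if i ∈ T then spin (x i) - t else 1) := by
  rw [Finset.prod_ite_mem, Finset.univ_inter]
  rfl

lemma wt_nonneg {t : ℝ} (ht : |t| ≤ 1) (x : Fin n → Bool) : 0 ≤ wt t x := by
  unfold wt
  refine Finset.prod_nonneg fun i _ => ?_
  have h := abs_le.mp ht
  cases x i <;> simp only [spin_true, spin_false] <;> linarith [h.1, h.2]

/-- Orthogonality of the biased characters. -/
lemma orth (t : ℝ) (S T : Finset (Fin n)) :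
    ∑ x, wt t x * (psi t S x * psi t T x)
      = if S = T then (1 - t ^ 2) ^ S.card else 0 := by
  have h1 : ∀ x : Fin n → Bool, wt t x * (psi t S x * psi t T x)
      = ∏ i, (((1 + t * spin (x i)) / 2) * ((if i ∈ S then spin (x i) - t else 1)
          * (if i ∈ T then spin (x i) - t else 1))) := by
    intro x
    rw [psi_eq_prod, psi_eq_prod, Finset.prod_mul_distrib, Finset.prod_mul_distrib]
    rfl
  simp_rw [h1]
  rw [sum_prod_bool (fun i b => ((1 + t * spin b) / 2) * ((if i ∈ S then spin b - t else 1)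
          * (if i ∈ T then spin b - t else 1)))]
  simp only [spin_true, spin_false]
  split_ifs with hST
  · subst hST
    have : ∀ i : Fin n, ((1 + t * 1) / 2 * ((if i ∈ S then (1:ℝ) - t else 1) * (if i ∈ S then (1:ℝ) - t else 1))
        + (1 + t * -1) / 2 * ((if i ∈ S then (-1:ℝ) - t else 1) * (if i ∈ S then (-1:ℝ) - t else 1)))
        = if i ∈ S then (1 - t ^ 2) else 1 := by
      intro i
      split_ifs <;> ring
    simp_rw [this]
    rw [Finset.prod_ite_mem, Finset.univ_inter, Finset.prod_const]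
  · obtain ⟨i, hi⟩ : ∃ i, ¬ (i ∈ S ↔ i ∈ T) := by
      by_contra hcon
      push_neg at hcon
      exact hST (Finset.ext hcon)
    refine Finset.prod_eq_zero (Finset.mem_univ i) ?_
    by_cases h1 : i ∈ S <;> by_cases h2 : i ∈ T <;> simp [h1, h2] at hi ⊢ <;> ring

lemma wt_sum (t : ℝ) : ∑ x : Fin n → Bool, wt t x = 1 := by
  have := orth (n := n) t ∅ ∅
  simpa [psi_empty] using this

/-- Parseval with an injective relabelling. -/
lemma parseval {ι : Type*} (I : Finset ι) (τ : ι → Finset (Fin n)) (hτ : Set.InjOn τ I)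
    (b : ι → ℝ) (t : ℝ) :
    ∑ x, wt t x * (∑ j ∈ I, b j * psi t (τ j) x) ^ 2
      = ∑ j ∈ I, (b j) ^ 2 * (1 - t ^ 2) ^ (τ j).card := by
  classical
  have h1 : ∀ x : Fin n → Bool, wt t x * (∑ j ∈ I, b j * psi t (τ j) x) ^ 2
      = ∑ j ∈ I, ∑ j' ∈ I, b j * b j' * (wt t x * (psi t (τ j) x * psi t (τ j') x)) := by
    intro x
    rw [sq, Finset.sum_mul_sum, Finset.mul_sum]
    refine Finset.sum_congr rfl fun j _ => ?_
    rw [Finset.mul_sum]
    refine Finset.sum_congr rfl fun j' _ => ?_
    ring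
  simp_rw [h1]
  rw [Finset.sum_comm]
  refine Finset.sum_congr rfl fun j hj => ?_
  rw [Finset.sum_comm]
  simp_rw [← Finset.mul_sum, orth]
  rw [Finset.sum_eq_single j]
  · rw [if_pos rfl]
    ring
  · intro j' hj' hne
    have : τ j ≠ τ j' := fun h => hne (hτ hj' hj h.symm)
    simp [this]
  · intro h; exact absurd hj h

/-- The mean of a combination of biased characters. -/
lemma mean_psi {ι : Type*} (I : Finset ι) (τ : ι → Finset (Fin n)) (b : ι → ℝ) (t : ℝ) :
    ∑ x, wt t x * (∑ j ∈ I, b j * psi t (τ j) x)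
      = ∑ j ∈ I, b j * (if τ j = ∅ then 1 else 0) := by
  have h1 : ∀ x : Fin n → Bool, wt t x * (∑ j ∈ I, b j * psi t (τ j) x)
      = ∑ j ∈ I, b j * (wt t x * (psi t ∅ x * psi t (τ j) x)) := by
    intro x
    rw [Finset.mul_sum]
    refine Finset.sum_congr rfl fun j _ => ?_
    rw [psi_empty]
    ring
  simp_rw [h1]
  rw [Finset.sum_comm]
  refine Finset.sum_congr rfl fun j _ => ?_
  rw [← Finset.mul_sum, orth]
  by_cases h : τ j = ∅
  · simp [h]
  · have : (∅ : Finset (Fin n)) ≠ τ j := fun e => h e.symm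
    simp [h, this]

/-! ### Fourier inversion and re-expansion -/

lemma spin_mul_self (b : Bool) : spin b * spin b = 1 := by
  cases b <;> simp [spin]

lemma sum_chi_mul_chi (x y : Fin n → Bool) :
    ∑ S, chi S x * chi S y = if x = y then 2 ^ n else 0 := by
  have h : ∀ S : Finset (Fin n), chi S x * chi S y = ∏ i ∈ S, (spin (x i) * spin (y i)) := by
    intro S
    unfold chi
    rw [Finset.prod_mul_distrib]
  simp_rw [h]
  have h2 := Finset.prod_one_add (s := (Finset.univ : Finset (Fin n)))
    (f := fun i => spin (x i) * spin (y i))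
  rw [Finset.powerset_univ] at h2
  rw [← h2]
  split_ifs with hxy
  · subst hxy
    simp [spin_mul_self]
    norm_num
  · obtain ⟨i, hi⟩ : ∃ i, x i ≠ y i := by
      by_contra hcon
      push_neg at hcon
      exact hxy (funext hcon)
    refine Finset.prod_eq_zero (Finset.mem_univ i) ?_
    cases hx : x i <;> cases hy : y i <;> simp_all [spin]

/-- Fourier inversion. -/
lemma fourier_inversion (f : (Fin n → Bool) → ℝ) (y : Fin n → Bool) :
    f y = ∑ S, fhat f S * chi S y := by
  unfold fhat
  have h : ∀ S : Finset (Fin n), (∑ x, f x * chi S x) / 2 ^ n * chi S y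
      = ∑ x, f x * (chi S x * chi S y) / 2 ^ n := by
    intro S
    rw [Finset.sum_div, Finset.sum_mul]
    refine Finset.sum_congr rfl fun x _ => ?_
    ring
  simp_rw [h]
  rw [Finset.sum_comm]
  have h2 : ∀ x : Fin n → Bool, ∑ S : Finset (Fin n), f x * (chi S x * chi S y) / 2 ^ n
      = f x * (if x = y then 1 else 0) := by
    intro x
    rw [← Finset.sum_div, ← Finset.mul_sum, sum_chi_mul_chi]
    split_ifs <;> simp
  simp_rw [h2]
  simp

/-- Taylor coefficient at the diagonal point `(t,…,t)` of the multilinear polynomial with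
coefficients `a`. -/
noncomputable def cc (a : Finset (Fin n) → ℝ) (t : ℝ) (T : Finset (Fin n)) : ℝ :=
  ∑ S ∈ Finset.univ.filter (fun S => T ⊆ S), a S * t ^ (S \ T).card

lemma chi_expand (t : ℝ) (S : Finset (Fin n)) (x : Fin n → Bool) :
    chi S x = ∑ T ∈ S.powerset, psi t T x * t ^ (S \ T).card := by
  have h := Finset.prod_add (s := S) (fun i => spin (x i) - t) (fun _ => t)
  have h2 : ∏ i ∈ S, (spin (x i) - t + t) = chi S x := by
    unfold chi
    refine Finset.prod_congr rfl fun i _ => by ring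
  rw [h2] at h
  rw [h]
  refine Finset.sum_congr rfl fun T _ => ?_
  rw [Finset.prod_const]
  rfl

lemma expand (a : Finset (Fin n) → ℝ) (t : ℝ) (x : Fin n → Bool) :
    ∑ S, a S * chi S x = ∑ T, cc a t T * psi t T x := by
  simp_rw [chi_expand t, Finset.mul_sum]
  rw [Finset.sum_comm' (t' := Finset.univ)
    (s' := fun T => Finset.univ.filter (fun S => T ⊆ S))]
  · refine Finset.sum_congr rfl fun T _ => ?_
    unfold cc
    rw [Finset.sum_mul]
    refine Finset.sum_congr rfl fun S _ => ?_
    ring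
  · intro S T
    simp

lemma cc_eq_zero {a : Finset (Fin n) → ℝ} {d : ℕ} (ha : ∀ S : Finset (Fin n), d < S.card → a S = 0)
    (t : ℝ) {T : Finset (Fin n)} (hT : d < T.card) : cc a t T = 0 := by
  unfold cc
  refine Finset.sum_eq_zero fun S hS => ?_
  have h : T ⊆ S := (Finset.mem_filter.mp hS).2
  rw [ha S (lt_of_lt_of_le hT (Finset.card_le_card h)), zero_mul]

/-- The diagonal polynomial of the coefficients `a`. -/
noncomputable def pp (a : Finset (Fin n) → ℝ) (t : ℝ) : ℝ := ∑ S, a S * t ^ S.card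

/-- Its derivative. -/
noncomputable def dp (a : Finset (Fin n) → ℝ) (t : ℝ) : ℝ :=
  ∑ S, a S * ((S.card : ℝ) * t ^ (S.card - 1))

lemma hasDerivAt_pp (a : Finset (Fin n) → ℝ) (t : ℝ) : HasDerivAt (pp a) (dp a t) t := by
  unfold pp dp
  apply HasDerivAt.fun_sum
  intro S _
  exact (hasDerivAt_pow S.card t).const_mul (a S)

lemma cc_empty (a : Finset (Fin n) → ℝ) (t : ℝ) : cc a t ∅ = pp a t := by
  unfold cc pp
  simp

lemma sum_cc_singleton (a : Finset (Fin n) → ℝ) (t : ℝ) :
    ∑ i, cc a t {i} = dp a t := by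
  unfold cc dp
  rw [Finset.sum_comm' (t' := Finset.univ) (s' := fun S => S)]
  · refine Finset.sum_congr rfl fun S _ => ?_
    have : ∀ i ∈ S, a S * t ^ (S \ {i}).card = a S * t ^ (S.card - 1) := by
      intro i hi
      rw [Finset.sdiff_singleton_eq_erase, Finset.card_erase_of_mem hi]
    rw [Finset.sum_congr rfl this, Finset.sum_const, nsmul_eq_mul]
    ring
  · intro i S
    simp

/-! ### The coordinate difference -/

/-- The discrete derivative in coordinate `i`. -/
noncomputable def dif (i : Fin n) (g : (Fin n → Bool) → ℝ) (x : Fin n → Bool) : ℝ :=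
  (g (Function.update x i true) - g (Function.update x i false)) / 2

lemma psi_update_not_mem (t : ℝ) {T : Finset (Fin n)} {i : Fin n} (hi : i ∉ T)
    (x : Fin n → Bool) (b : Bool) : psi t T (Function.update x i b) = psi t T x := by
  unfold psi
  refine Finset.prod_congr rfl fun j hj => ?_
  have : j ≠ i := fun e => hi (e ▸ hj)
  rw [Function.update_of_ne this]

lemma psi_update_mem (t : ℝ) {T : Finset (Fin n)} {i : Fin n} (hi : i ∈ T)
    (x : Fin n → Bool) (b : Bool) :
    psi t T (Function.update x i b) = (spin b - t) * psi t (T.erase i) x := by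
  unfold psi
  rw [← Finset.mul_prod_erase T _ hi, Function.update_self]
  congr 1
  refine Finset.prod_congr rfl fun j hj => ?_
  rw [Function.update_of_ne (Finset.ne_of_mem_erase hj)]

lemma dif_psi (t : ℝ) (T : Finset (Fin n)) (i : Fin n) (x : Fin n → Bool) :
    dif i (psi t T) x = if i ∈ T then psi t (T.erase i) x else 0 := by
  unfold dif
  split_ifs with hi
  · rw [psi_update_mem t hi, psi_update_mem t hi, spin_true, spin_false]
    ring
  · rw [psi_update_not_mem t hi, psi_update_not_mem t hi]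
    ring

section Boolean

variable {f : (Fin n → Bool) → ℝ} (hf : ∀ x, f x = 1 ∨ f x = -1)
include hf

lemma dif_le_sq (i : Fin n) (x : Fin n → Bool) : dif i f x ≤ (dif i f x) ^ 2 := by
  unfold dif
  rcases hf (Function.update x i true) with h1 | h1 <;>
    rcases hf (Function.update x i false) with h2 | h2 <;> rw [h1, h2] <;> norm_num

lemma f_expansion (t : ℝ) (x : Fin n → Bool) : f x = ∑ T, cc (fhat f) t T * psi t T x := by
  rw [fourier_inversion f x, expand]

lemma dif_expansion (t : ℝ) (i : Fin n) (x : Fin n → Bool) :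
    dif i f x = ∑ T ∈ Finset.univ.filter (fun T => i ∈ T), cc (fhat f) t T * psi t (T.erase i) x := by
  have h : ∀ y, f y = ∑ T, cc (fhat f) t T * psi t T y := f_expansion hf t
  have h2 : dif i f x = ∑ T, cc (fhat f) t T * dif i (psi t T) x := by
    unfold dif
    rw [h (Function.update x i true), h (Function.update x i false), ← Finset.sum_sub_distrib,
      Finset.sum_div]
    refine Finset.sum_congr rfl fun T _ => ?_
    ring
  rw [h2, Finset.sum_filter]
  refine Finset.sum_congr rfl fun T _ => ?_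
  rw [dif_psi]
  split_ifs <;> simp

/-- Parseval for the Boolean function. -/
lemma parseval_f (t : ℝ) :
    ∑ T, (cc (fhat f) t T) ^ 2 * (1 - t ^ 2) ^ T.card = 1 := by
  have h := parseval (n := n) Finset.univ (fun T : Finset (Fin n) => T) (fun _ _ _ _ e => e)
    (cc (fhat f) t) t
  rw [← h, ← wt_sum (n := n) t]
  refine Finset.sum_congr rfl fun x _ => ?_
  rw [← f_expansion hf t x]
  rcases hf x with h1 | h1 <;> rw [h1] <;> ring

lemma erase_injOn (i : Fin n) :
    Set.InjOn (fun T : Finset (Fin n) => T.erase i)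
      (Finset.univ.filter (fun T : Finset (Fin n) => i ∈ T) : Finset (Finset (Fin n))) := by
  intro S hS T hT e
  have h1 : i ∈ S := by simpa using hS
  have h2 : i ∈ T := by simpa using hT
  have := congrArg (insert i) e
  simpa [Finset.insert_erase h1, Finset.insert_erase h2] using this

/-- The Boolean step in coordinate `i`. -/
lemma coord_bound {t : ℝ} (ht : |t| ≤ 1) (i : Fin n) :
    cc (fhat f) t {i} ≤ ∑ T ∈ Finset.univ.filter (fun T => i ∈ T),
      (cc (fhat f) t T) ^ 2 * (1 - t ^ 2) ^ (T.erase i).card := by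
  have h1 : ∑ x, wt t x * dif i f x = cc (fhat f) t {i} := by
    simp_rw [dif_expansion hf t i]
    rw [mean_psi]
    rw [Finset.sum_eq_single {i}]
    · simp
    · intro T hT hne
      have hi : i ∈ T := by simpa using hT
      have : T.erase i ≠ ∅ := by
        intro e
        apply hne
        have := Finset.insert_erase hi
        rw [e] at this
        simpa using this.symm
      simp [this]
    · intro h
      simp at h
  have h2 : ∑ x, wt t x * (dif i f x) ^ 2 = ∑ T ∈ Finset.univ.filter (fun T => i ∈ T),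
      (cc (fhat f) t T) ^ 2 * (1 - t ^ 2) ^ (T.erase i).card := by
    simp_rw [dif_expansion hf t i]
    exact parseval _ _ (erase_injOn hf i) _ t
  rw [← h1, ← h2]
  refine Finset.sum_le_sum fun x _ => ?_
  exact mul_le_mul_of_nonneg_left (dif_le_sq hf i x) (wt_nonneg ht x)

/-- Main inequality of this file. -/
theorem gradient_bound {d : ℕ} (hdeg : ∀ S : Finset (Fin n), d < S.card → fhat f S = 0)
    {t : ℝ} (ht : |t| ≤ 1) :
    (1 - t ^ 2) * dp (fhat f) t ≤ d * (1 - (pp (fhat f) t) ^ 2) := by
  have hs : 0 ≤ 1 - t ^ 2 := by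
    have := abs_le.mp ht
    nlinarith [this.1, this.2]
  rw [← sum_cc_singleton, Finset.mul_sum]
  have h1 : ∀ i ∈ (Finset.univ : Finset (Fin n)), (1 - t ^ 2) * cc (fhat f) t {i}
      ≤ ∑ T ∈ Finset.univ.filter (fun T => i ∈ T),
        (cc (fhat f) t T) ^ 2 * (1 - t ^ 2) ^ T.card := by
    intro i _
    have := mul_le_mul_of_nonneg_left (coord_bound hf ht i) hs
    refine this.trans (le_of_eq ?_)
    rw [Finset.mul_sum]
    refine Finset.sum_congr rfl fun T hT => ?_
    have hi : i ∈ T := by simpa using hT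
    have hc : T.card = (T.erase i).card + 1 := by
      rw [Finset.card_erase_of_mem hi]
      have : 0 < T.card := Finset.card_pos.mpr ⟨i, hi⟩
      omega
    rw [hc, pow_succ]
    ring
  refine (Finset.sum_le_sum h1).trans ?_
  rw [Finset.sum_comm' (t' := Finset.univ) (s' := fun T => T)]
  swap
  · intro i T
    simp
  simp only [Finset.sum_const, nsmul_eq_mul]
  have hP := parseval_f hf t
  have hempty : (cc (fhat f) t ∅) ^ 2 * (1 - t ^ 2) ^ (∅ : Finset (Fin n)).card
      = (pp (fhat f) t) ^ 2 := by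
    rw [cc_empty]
    simp
  have h2 : ∑ T : Finset (Fin n), (T.card : ℝ) * ((cc (fhat f) t T) ^ 2 * (1 - t ^ 2) ^ T.card)
      ≤ ∑ T : Finset (Fin n), (if T = ∅ then (0 : ℝ) else (d : ℝ) * ((cc (fhat f) t T) ^ 2 * (1 - t ^ 2) ^ T.card)) := by
    refine Finset.sum_le_sum fun T _ => ?_
    have hnn : 0 ≤ (cc (fhat f) t T) ^ 2 * (1 - t ^ 2) ^ T.card := by positivity
    split_ifs with hT
    · subst hT
      simp
    · by_cases hc : d < T.card
      · rw [cc_eq_zero hdeg t hc]
        simp
      · have : (T.card : ℝ) ≤ d := by exact_mod_cast not_lt.mp hc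
        exact mul_le_mul_of_nonneg_right this hnn
  refine h2.trans (le_of_eq ?_)
  have h3 : ∑ T : Finset (Fin n), (if T = ∅ then (0 : ℝ) else (d : ℝ) * ((cc (fhat f) t T) ^ 2 * (1 - t ^ 2) ^ T.card))
      = (d : ℝ) * ∑ T : Finset (Fin n), ((cc (fhat f) t T) ^ 2 * (1 - t ^ 2) ^ T.card)
        - (d : ℝ) * ((cc (fhat f) t ∅) ^ 2 * (1 - t ^ 2) ^ (∅ : Finset (Fin n)).card) := by
    rw [Finset.mul_sum, ← Finset.add_sum_erase _ _ (Finset.mem_univ (∅ : Finset (Fin n))),
      ← Finset.add_sum_erase (Finset.univ) (fun T : Finset (Fin n) => (d : ℝ) * ((cc (fhat f) t T) ^ 2 * (1 - t ^ 2) ^ T.card)) (Finset.mem_univ (∅ : Finset (Fin n)))]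
    simp only [if_true, zero_add, add_sub_cancel_left]
    refine Finset.sum_congr rfl fun T hT => ?_
    rw [if_neg (Finset.ne_of_mem_erase hT)]
  rw [h3, hP, hempty]
  ring

/-- `p(t)^2 ≤ 1`. -/
theorem pp_sq_le {t : ℝ} (ht : |t| ≤ 1) : (pp (fhat f) t) ^ 2 ≤ 1 := by
  have hs : 0 ≤ 1 - t ^ 2 := by
    have := abs_le.mp ht
    nlinarith [this.1, this.2]
  have hP := parseval_f hf t
  have h := Finset.single_le_sum (f := fun T : Finset (Fin n) => (cc (fhat f) t T) ^ 2 * (1 - t ^ 2) ^ T.card)
    (fun T _ => by positivity) (Finset.mem_univ (∅ : Finset (Fin n)))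
  rw [hP] at h
  simpa [cc_empty] using h

end Boolean

end Vale.Agent.P047
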