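import Mathlib

/-!
Fourier coefficients of real functions on the discrete cube `{-1,1}^n`,
the cube being written `Fin n → Bool` with `true ↦ 1`, `false ↦ -1`.
-/

namespace Vale.Agent.P047

open Finset

/-- The sign attached to a Boolean coordinate: `true ↦ 1`, `false ↦ -1`. -/
noncomputable def spin (b : Bool) : ℝ := if b then 1 else -1

/-- The character `x ↦ ∏_{i ∈ S} x_i`. -/
noncomputable def chi {n : ℕ} (S : Finset (Fin n)) (x : Fin n → Bool) : ℝ :=
  ∏ i ∈ S, spin (x i)

/-- The Fourier coefficient `E[f(X) ∏_{i ∈ S} X_i]`, `X` uniform on the cube. -/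
noncomputable def fhat {n : ℕ} (f : (Fin n → Bool) → ℝ) (S : Finset (Fin n)) : ℝ :=
  (∑ x, f x * chi S x) / 2 ^ n

end Vale.Agent.P047
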