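import Vale.Agent.P047.Ode

/-!
The final estimate `∑ i, fhat f {i} ≤ (97/100) d` for Boolean functions of degree at most `d ≥ 2`.
-/

namespace Vale.Agent.P047

open Finset Real

lemma ratio_mono {s y : ℝ} (_hs : 0 ≤ s) (hsy : s ≤ y) (hy : y < 1) :
    (1 + s) / (1 - s) ≤ (1 + y) / (1 - y) := by
  rw [div_le_div_iff₀ (by linarith) (by linarith)]
  nlinarith

lemma exp_15_4_le : exp (15 / 4) ≤ 43 := by
  have h1 : exp (15 / 4) ^ 4 = exp 1 ^ 15 := by
    rw [← exp_nat_mul, ← exp_nat_mul]
    norm_num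
  have h2 : exp 1 ^ 15 ≤ (2.7182818286 : ℝ) ^ 15 :=
    pow_le_pow_left₀ (exp_pos 1).le exp_one_lt_d9.le 15
  have h3 : exp (15 / 4) ^ 4 ≤ (43 : ℝ) ^ 4 := by
    rw [h1]
    refine h2.trans ?_
    norm_num
  exact (pow_le_pow_iff_left₀ (exp_pos _).le (by norm_num) (by norm_num)).mp h3

lemma theta_zero (d : ℕ) : theta d 0 = π / (2 * (d : ℝ)) := by
  unfold theta
  simp

/-- Bound on the comparison factor at the first node. -/
lemma factor_bound {d : ℕ} (hd : 2 ≤ d) :
    let s := sin (theta d 0)
    0 ≤ s ∧ s < 1 ∧ ((1 + s) / (1 - s)) ^ d ≤ 43 := by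
  intro s
  have hdr : (2 : ℝ) ≤ d := by exact_mod_cast hd
  have hpi3 := pi_gt_three
  have hpi4 := pi_lt_d4
  set y : ℝ := π / (2 * (d : ℝ)) with hy
  have hsy : s = sin y := by
    show sin (theta d 0) = sin y
    rw [theta_zero]
  have hy0 : 0 < y := by rw [hy]; positivity
  have hy4 : y ≤ π / 4 := by
    rw [hy]
    apply div_le_div_of_nonneg_left pi_pos.le (by norm_num)
    linarith
  have hy1 : y < 1 := by linarith
  have hyle : y ≤ π := by linarith
  have hs0 : 0 ≤ s := by
    rw [hsy]
    exact sin_nonneg_of_nonneg_of_le_pi hy0.le hyle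
  have hsley : s ≤ y := by
    rw [hsy]
    exact sin_le hy0.le
  have hs1 : s < 1 := by linarith
  refine ⟨hs0, hs1, ?_⟩
  have hpy : ((1 + s) / (1 - s)) ^ d ≤ ((1 + y) / (1 - y)) ^ d :=
    pow_le_pow_left₀ (div_nonneg (by linarith) (by linarith)) (ratio_mono hs0 hsley hy1) d
  by_cases h6 : 6 ≤ d
  · refine hpy.trans ?_
    have hdr6 : (6 : ℝ) ≤ d := by exact_mod_cast h6
    have hy12 : y ≤ π / 12 := by
      rw [hy]
      apply div_le_div_of_nonneg_left pi_pos.le (by norm_num)
      linarith
    have hy3 : y ≤ 0.2618 := by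
      have : π / 12 ≤ 0.2618 := by
        rw [div_le_iff₀ (by norm_num)]
        linarith
      linarith
    have h1m : 0 < 1 - y := by linarith
    have e1 : 1 + y ≤ exp y := by linarith [add_one_le_exp y]
    have e2 : 1 / (1 - y) ≤ exp (y / (1 - y)) := by
      have := add_one_le_exp (y / (1 - y))
      have e : y / (1 - y) + 1 = 1 / (1 - y) := by
        field_simp
        ring
      rw [e] at this
      exact this
    have e3 : (1 + y) / (1 - y) ≤ exp (y + y / (1 - y)) := by
      rw [exp_add, div_eq_mul_one_div]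
      exact mul_le_mul e1 e2 (by positivity) (exp_pos _).le
    have e4 : ((1 + y) / (1 - y)) ^ d ≤ exp ((d : ℝ) * (y + y / (1 - y))) := by
      rw [exp_nat_mul]
      exact pow_le_pow_left₀ (by positivity) e3 d
    refine e4.trans ((exp_le_exp.mpr ?_).trans exp_15_4_le)
    have hdy : (d : ℝ) * y = π / 2 := by
      rw [hy]
      field_simp
    have e5 : (d : ℝ) * (y + y / (1 - y)) = (π / 2) * (1 + 1 / (1 - y)) := by
      rw [← hdy]
      field_simp
    rw [e5]
    have e6 : 1 / (1 - y) ≤ 1.3547 := by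
      rw [div_le_iff₀ h1m]
      linarith
    have : (π / 2) * (1 + 1 / (1 - y)) ≤ 1.5708 * (1 + 1.3547) := by
      apply mul_le_mul (by linarith) (by linarith) (by positivity) (by norm_num)
    refine this.trans (by norm_num)
  · have hcases : d = 2 ∨ d = 3 ∨ d = 4 ∨ d = 5 := by omega
    rcases hcases with rfl | rfl | rfl | rfl
    · -- d = 2: the exact value of the sine
      have hs2 : s = √2 / 2 := by
        rw [hsy, hy]
        push_cast
        have : π / (2 * 2) = π / 4 := by norm_num
        rw [this, sin_pi_div_four]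
      have hsq : √2 ≤ 1.4143 := by
        rw [sqrt_le_left (by norm_num)]
        norm_num
      have hs3 : s ≤ 0.70715 := by
        rw [hs2]
        linarith
      have h := ratio_mono hs0 hs3 (by norm_num)
      have := pow_le_pow_left₀ (div_nonneg (by linarith) (by linarith)) h 2
      refine this.trans (by norm_num)
    · have hy3 : y ≤ 0.5236 := by
        rw [hy]
        push_cast
        rw [div_le_iff₀ (by norm_num)]
        linarith
      have h := ratio_mono hs0 (hsley.trans hy3) (by norm_num)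
      have := pow_le_pow_left₀ (div_nonneg (by linarith) (by linarith)) h 3
      refine this.trans (by norm_num)
    · have hy3 : y ≤ 0.3927 := by
        rw [hy]
        push_cast
        rw [div_le_iff₀ (by norm_num)]
        linarith
      have h := ratio_mono hs0 (hsley.trans hy3) (by norm_num)
      have := pow_le_pow_left₀ (div_nonneg (by linarith) (by linarith)) h 4
      refine this.trans (by norm_num)
    · have hy3 : y ≤ 0.31416 := by
        rw [hy]
        push_cast
        rw [div_le_iff₀ (by norm_num)]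
        linarith
      have h := ratio_mono hs0 (hsley.trans hy3) (by norm_num)
      have := pow_le_pow_left₀ (div_nonneg (by linarith) (by linarith)) h 5
      refine this.trans (by norm_num)

/-- Lower bound for the first weight. -/
lemma lam_zero_ge {d : ℕ} (hd : 0 < d) : 4 * (d : ℝ) / π ^ 2 ≤ lam d 0 := by
  have hdr : (0 : ℝ) < d := by exact_mod_cast hd
  have hs := sin_theta_half_pos hd (k := 0) (by omega)
  have hx : 0 < theta d 0 / 2 := (theta_half_mem hd (k := 0) (by omega)).1
  have hle : sin (theta d 0 / 2) ≤ theta d 0 / 2 := sin_le hx.le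
  have hval : theta d 0 / 2 = π / (4 * (d : ℝ)) := by
    rw [theta_zero]
    field_simp
    ring
  have h1 : (sin (theta d 0 / 2)) ^ 2 ≤ (π / (4 * (d : ℝ))) ^ 2 := by
    rw [← hval]
    exact pow_le_pow_left₀ hs.le hle 2
  unfold lam
  have h2 : 4 * (d : ℝ) * (sin (theta d 0 / 2)) ^ 2 ≤ π ^ 2 / (4 * (d : ℝ)) := by
    calc 4 * (d : ℝ) * (sin (theta d 0 / 2)) ^ 2 ≤ 4 * (d : ℝ) * (π / (4 * (d : ℝ))) ^ 2 :=
          mul_le_mul_of_nonneg_left h1 (by positivity)
      _ = π ^ 2 / (4 * (d : ℝ)) := by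
          field_simp
  have h3 : 4 * (d : ℝ) / π ^ 2 = 1 / (π ^ 2 / (4 * (d : ℝ))) := by
    field_simp
  rw [h3]
  exact one_div_le_one_div_of_le (by positivity) h2

lemma sum_singletons {n : ℕ} (a : Finset (Fin n) → ℝ) :
    ∑ S : Finset (Fin n), (if S.card = 1 then a S else 0) = ∑ i, a {i} := by
  rw [← Finset.sum_filter]
  symm
  refine Finset.sum_bij (fun i _ => ({i} : Finset (Fin n))) ?_ ?_ ?_ ?_
  · intro i _
    simp
  · intro i _ j _ h
    exact Finset.singleton_injective h
  · intro S hS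
    have h1 : S.card = 1 := (Finset.mem_filter.mp hS).2
    obtain ⟨i, rfl⟩ := Finset.card_eq_one.mp h1
    exact ⟨i, Finset.mem_univ _, rfl⟩
  · intro i _
    rfl

/-- The main theorem: the first-level sum of a Boolean function of degree at most `d ≥ 2`
is at most `(97/100) d`. -/
theorem first_level_le {n d : ℕ} (hd : 2 ≤ d) (f : (Fin n → Bool) → ℝ)
    (hf : ∀ x, f x = 1 ∨ f x = -1) (hdeg : ∀ S : Finset (Fin n), d < S.card → fhat f S = 0) :
    ∑ i, fhat f {i} ≤ (97 / 100) * (d : ℝ) := by
  have hd0 : 0 < d := by omega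
  have hdr : (0 : ℝ) < d := by exact_mod_cast hd0
  set a := fhat f with ha
  -- the Riesz functional computes the first-level sum
  have hL : ∑ k ∈ range (2 * d), (-1 : ℝ) ^ k * lam d k * pp a (sin (theta d k)) = ∑ i, a {i} := by
    rw [← sum_singletons]
    unfold pp
    simp_rw [Finset.mul_sum]
    rw [Finset.sum_comm]
    refine Finset.sum_congr rfl fun S _ => ?_
    by_cases hS : d < S.card
    · have h0 : a S = 0 := hdeg S hS
      have hc : S.card ≠ 1 := by omega
      simp [h0]
    · have h := riesz_pow hd0 S.card (not_lt.mp hS)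
      have h2 : ∑ k ∈ range (2 * d), (-1 : ℝ) ^ k * lam d k * (a S * sin (theta d k) ^ S.card)
          = a S * ∑ k ∈ range (2 * d), (-1 : ℝ) ^ k * lam d k * sin (theta d k) ^ S.card := by
        rw [Finset.mul_sum]
        refine Finset.sum_congr rfl fun k _ => ?_
        ring
      rw [h2, h]
      split_ifs <;> simp
  -- each term is at most its weight
  have hterm : ∀ k ∈ range (2 * d),
      (-1 : ℝ) ^ k * lam d k * pp a (sin (theta d k)) - lam d k ≤ 0 := by
    intro k hk
    have hk' := Finset.mem_range.mp hk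
    have hl := lam_pos hd0 hk'
    have hP := pp_sq_le hf (t := sin (theta d k)) (abs_sin_le_one _)
    have hP2 : |pp a (sin (theta d k))| ≤ 1 := by
      rw [← abs_one, ← sq_le_sq]
      simpa using hP
    have hP3 : (-1 : ℝ) ^ k * pp a (sin (theta d k)) ≤ 1 := by
      have : |(-1 : ℝ) ^ k * pp a (sin (theta d k))| ≤ 1 := by
        rw [abs_mul, abs_pow, abs_neg, abs_one, one_pow, one_mul]
        exact hP2
      exact (abs_le.mp this).2
    have : (-1 : ℝ) ^ k * lam d k * pp a (sin (theta d k)) - lam d k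
        = lam d k * ((-1 : ℝ) ^ k * pp a (sin (theta d k)) - 1) := by ring
    rw [this]
    exact mul_nonpos_of_nonneg_of_nonpos hl.le (by linarith)
  -- the first and last nodes
  obtain ⟨hs0, hs1, hfac⟩ := factor_bound hd
  set s := sin (theta d 0) with hs
  obtain ⟨e, rfl⟩ : ∃ e, d = e + 1 := ⟨d - 1, by omega⟩
  have hdiff : pp a s - pp a (-s) ≤ 21 / 11 := by
    have hIcc : ∀ t ∈ Set.Icc (-s) s, |t| ≤ 1 := by
      intro t ht
      rw [abs_le]
      constructor <;> linarith [ht.1, ht.2]
    refine diff_bound (P := pp a) (P' := dp a) hs0 hs1 hfac (fun t _ => hasDerivAt_pp a t)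
      (fun t ht => pp_sq_le hf (hIcc t ht)) (fun t ht => gradient_bound hf hdeg (hIcc t ht))
  have hlast : 2 * (e + 1) - 1 - 0 = 2 * (e + 1) - 1 := by omega
  have hthlast : theta (e + 1) (2 * (e + 1) - 1) = 2 * π - theta (e + 1) 0 := by
    have := theta_rev hd0 (k := 0) (by omega)
    rwa [hlast] at this
  have hlamlast : lam (e + 1) (2 * (e + 1) - 1) = lam (e + 1) 0 := by
    have := lam_rev hd0 (k := 0) (by omega)
    rwa [hlast] at this
  have hsiglast : (-1 : ℝ) ^ (2 * (e + 1) - 1) = -1 := by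
    have := sign_rev hd0 (k := 0) (by omega)
    rw [hlast] at this
    simpa using this
  have hsinlast : sin (theta (e + 1) (2 * (e + 1) - 1)) = -s := by
    rw [hthlast, hs, sin_two_pi_sub]
  have hneq : (0 : ℕ) ≠ 2 * (e + 1) - 1 := by omega
  have hsub : ({0, 2 * (e + 1) - 1} : Finset ℕ) ⊆ range (2 * (e + 1)) := by
    intro k hk
    simp only [Finset.mem_insert, Finset.mem_singleton] at hk
    rw [Finset.mem_range]
    omega
  set g : ℕ → ℝ := fun k => (-1 : ℝ) ^ k * lam (e + 1) k * pp a (sin (theta (e + 1) k)) - lam (e + 1) k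
    with hg
  have hsumg : ∑ k ∈ range (2 * (e + 1)), g k ≤ g 0 + g (2 * (e + 1) - 1) := by
    have h1 := Finset.sum_le_sum_of_subset_of_nonneg (f := fun k => -g k) hsub
      (fun k hk _ => by
        have := hterm k hk
        show 0 ≤ -g k
        simp only [hg]
        linarith)
    rw [Finset.sum_pair hneq] at h1
    simp only [Finset.sum_neg_distrib] at h1
    linarith
  have hsumg2 : ∑ k ∈ range (2 * (e + 1)), g k = ∑ i, a {i} - ((e + 1 : ℕ) : ℝ) := by
    simp only [hg]
    rw [Finset.sum_sub_distrib, hL, sum_lam hd0]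
  have hg0 : g 0 + g (2 * (e + 1) - 1)
      = lam (e + 1) 0 * ((pp a s - pp a (-s)) - 2) := by
    simp only [hg]
    rw [hsiglast, hlamlast, hsinlast]
    simp only [pow_zero, one_mul]
    ring
  have hl0 := lam_zero_ge hd0
  have hlpos : 0 < lam (e + 1) 0 := lam_pos hd0 (by omega)
  have hfinal : ∑ i, a {i} - ((e + 1 : ℕ) : ℝ) ≤ - (lam (e + 1) 0 / 11) := by
    rw [← hsumg2]
    refine hsumg.trans ?_
    rw [hg0]
    nlinarith
  have hpi : π ^ 2 ≤ 9.87 := by
    have := pi_lt_d4
    have h0 := pi_pos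
    nlinarith
  have hl1 : 4 * ((e + 1 : ℕ) : ℝ) / 9.87 ≤ lam (e + 1) 0 := by
    refine le_trans ?_ hl0
    apply div_le_div_of_nonneg_left (by positivity) (by positivity) hpi
  have hcast : (0 : ℝ) < ((e + 1 : ℕ) : ℝ) := hdr
  have h4 : 4 * ((e + 1 : ℕ) : ℝ) / 9.87 = (4 / 9.87) * ((e + 1 : ℕ) : ℝ) := by ring
  rw [h4] at hl1
  have : (4 / 9.87 : ℝ) / 11 ≥ 3 / 100 := by norm_num
  nlinarith

end Vale.Agent.P047
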