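import Mathlib

/-!
M. Riesz interpolation at the nodes `theta d k = (2k+1)π/(2d)`, `k < 2d`:
for `m ≤ d`, `∑ k, (-1)^k * lam d k * (sin (theta d k))^m` is `1` if `m = 1`, else `0`,
and `∑ k, lam d k = d`.
-/

namespace Vale.Agent.P047

open Finset Real

noncomputable def theta (d k : ℕ) : ℝ := (2 * (k : ℝ) + 1) * π / (2 * (d : ℝ))

noncomputable def lam (d k : ℕ) : ℝ := 1 / (4 * (d : ℝ) * (sin (theta d k / 2)) ^ 2)

/-- the linear functional at the nodes -/
noncomputable def rieszL (d : ℕ) (g : ℝ → ℝ) : ℝ :=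
  ∑ k ∈ range (2 * d), (-1 : ℝ) ^ k * lam d k * g (theta d k)

section
variable {d : ℕ} (hd : 0 < d)
include hd

lemma d_pos_real : (0 : ℝ) < d := by exact_mod_cast hd

lemma theta_half_mem {k : ℕ} (hk : k < 2 * d) : 0 < theta d k / 2 ∧ theta d k / 2 < π := by
  have hdr := d_pos_real hd
  have hk' : (k : ℝ) + 1 ≤ 2 * d := by exact_mod_cast hk
  have h0 : (0:ℝ) ≤ k := Nat.cast_nonneg k
  unfold theta
  constructor
  · have : 0 < (2 * (k : ℝ) + 1) * π / (2 * (d : ℝ)) := by positivity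
    linarith
  · rw [div_div, div_lt_iff₀ (by positivity)]
    nlinarith [pi_pos]

lemma sin_theta_half_pos {k : ℕ} (hk : k < 2 * d) : 0 < sin (theta d k / 2) := by
  obtain ⟨h1, h2⟩ := theta_half_mem hd hk
  exact sin_pos_of_pos_of_lt_pi h1 h2

lemma lam_pos {k : ℕ} (hk : k < 2 * d) : 0 < lam d k := by
  have := sin_theta_half_pos hd hk
  have hdr := d_pos_real hd
  unfold lam
  positivity

lemma lam_mul {k : ℕ} (hk : k < 2 * d) :
    lam d k * (4 * (sin (theta d k / 2)) ^ 2) = 1 / (d : ℝ) := by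
  have := sin_theta_half_pos hd hk
  have hdr := d_pos_real hd
  unfold lam
  field_simp

lemma theta_rev {k : ℕ} (hk : k < 2 * d) : theta d (2 * d - 1 - k) = 2 * π - theta d k := by
  have hdr := d_pos_real hd
  have h : ((2 * d - 1 - k : ℕ) : ℝ) = 2 * (d : ℝ) - 1 - k := by
    have h1 : k + 1 ≤ 2 * d := hk
    have : 2 * d - 1 - k + (k + 1) = 2 * d := by omega
    have h2 : (((2 * d - 1 - k) + (k + 1) : ℕ) : ℝ) = ((2 * d : ℕ) : ℝ) := by rw [this]
    push_cast at h2
    linarith
  unfold theta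
  rw [h]
  field_simp
  ring

lemma lam_rev {k : ℕ} (hk : k < 2 * d) : lam d (2 * d - 1 - k) = lam d k := by
  unfold lam
  rw [theta_rev hd hk]
  have : (2 * π - theta d k) / 2 = π - theta d k / 2 := by ring
  rw [this, sin_pi_sub]

lemma sign_rev {k : ℕ} (hk : k < 2 * d) : (-1 : ℝ) ^ (2 * d - 1 - k) = -(-1 : ℝ) ^ k := by
  have h1 : k + 1 ≤ 2 * d := hk
  have h : (-1 : ℝ) ^ (2 * d - 1 - k) * (-1 : ℝ) ^ (k + 1) = 1 := by
    rw [← pow_add]
    have : 2 * d - 1 - k + (k + 1) = 2 * d := by omega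
    rw [this, pow_mul]
    norm_num
  have h2 : ((-1 : ℝ) ^ k) * (-1 : ℝ) ^ k = 1 := by
    rw [← mul_pow]; norm_num
  rw [pow_succ] at h
  have h3 : (-1 : ℝ) ^ (2 * d - 1 - k) * (-1 : ℝ) ^ k = -1 := by linarith
  calc (-1 : ℝ) ^ (2 * d - 1 - k) = (-1 : ℝ) ^ (2 * d - 1 - k) * ((-1 : ℝ) ^ k * (-1 : ℝ) ^ k) := by
        rw [h2, mul_one]
    _ = ((-1 : ℝ) ^ (2 * d - 1 - k) * (-1 : ℝ) ^ k) * (-1 : ℝ) ^ k := by ring
    _ = -(-1 : ℝ) ^ k := by rw [h3]; ring

/-- The cosine sums vanish by the reflection `k ↦ 2d-1-k`. -/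
lemma cos_sum (j : ℤ) :
    ∑ k ∈ range (2 * d), (-1 : ℝ) ^ k * lam d k * cos ((j : ℝ) * theta d k) = 0 := by
  have h := Finset.sum_range_reflect
    (fun k => (-1 : ℝ) ^ k * lam d k * cos ((j : ℝ) * theta d k)) (2 * d)
  have h2 : ∑ k ∈ range (2 * d), (-1 : ℝ) ^ (2 * d - 1 - k) * lam d (2 * d - 1 - k)
        * cos ((j : ℝ) * theta d (2 * d - 1 - k))
      = - ∑ k ∈ range (2 * d), (-1 : ℝ) ^ k * lam d k * cos ((j : ℝ) * theta d k) := by
    rw [← Finset.sum_neg_distrib]
    refine Finset.sum_congr rfl fun k hk => ?_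
    have hk' := Finset.mem_range.mp hk
    rw [sign_rev hd hk', lam_rev hd hk', theta_rev hd hk']
    have : (j : ℝ) * (2 * π - theta d k) = (j : ℝ) * (2 * π) - (j : ℝ) * theta d k := by ring
    rw [this, cos_int_mul_two_pi_sub]
    ring
  rw [h] at h2
  linarith

/-- `∑ (-1)^k sin (j θ_k) = 0` for `0 ≤ j < d`, with `j` natural. -/
lemma alt_sin_sum {j : ℕ} (hj : j < d) :
    ∑ k ∈ range (2 * d), (-1 : ℝ) ^ k * sin ((j : ℝ) * theta d k) = 0 := by
  have hdr := d_pos_real hd
  have hjd : (j : ℝ) < d := by exact_mod_cast hj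
  have hj0 : (0 : ℝ) ≤ j := Nat.cast_nonneg j
  set β : ℝ := (j : ℝ) * π / d with hβ
  have hc : 0 < cos (β / 2) := by
    apply cos_pos_of_mem_Ioo
    constructor
    · have : 0 ≤ β / 2 := by rw [hβ]; positivity
      linarith [pi_pos]
    · have : β < π := by
        rw [hβ, div_lt_iff₀ hdr]
        nlinarith [pi_pos]
      linarith
  set u : ℕ → ℝ := fun k => (-1 : ℝ) ^ k * sin ((j : ℝ) * theta d k - β / 2) with hu
  have step : ∀ k, (-1 : ℝ) ^ k * sin ((j : ℝ) * theta d k) * (2 * cos (β / 2)) = u k - u (k + 1) := by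
    intro k
    have h1 : (j : ℝ) * theta d (k + 1) - β / 2 = (j : ℝ) * theta d k + β / 2 := by
      unfold theta
      rw [hβ]
      push_cast
      field_simp
      ring
    simp only [hu, h1]
    rw [sin_sub, sin_add, pow_succ]
    ring
  have hsum : (∑ k ∈ range (2 * d), (-1 : ℝ) ^ k * sin ((j : ℝ) * theta d k)) * (2 * cos (β / 2))
      = u 0 - u (2 * d) := by
    rw [Finset.sum_mul, Finset.sum_congr rfl (fun k _ => step k), Finset.sum_range_sub']
  have hend : u (2 * d) = u 0 := by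
    simp only [hu]
    have h1 : (j : ℝ) * theta d (2 * d) = (j : ℝ) * theta d 0 + (j : ℤ) * (2 * π) := by
      unfold theta
      push_cast
      field_simp
      ring
    have h2 : (-1 : ℝ) ^ (2 * d) = 1 := by rw [pow_mul]; norm_num
    rw [h1, h2]
    have : (j : ℝ) * theta d 0 + ((j : ℤ) : ℝ) * (2 * π) - β / 2
        = ((j : ℝ) * theta d 0 - β / 2) + ((j : ℤ) : ℝ) * (2 * π) := by ring
    rw [this, sin_add_int_mul_two_pi]
    simp
  rw [hend, sub_self] at hsum
  have : 2 * cos (β / 2) ≠ 0 := by positivity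
  exact (mul_eq_zero.mp hsum).resolve_right this

lemma sin_d_theta (k : ℕ) : sin ((d : ℝ) * theta d k) = (-1 : ℝ) ^ k := by
  have hdr := d_pos_real hd
  have : (d : ℝ) * theta d k = π / 2 + (k : ℝ) * π := by
    unfold theta
    field_simp
    ring
  rw [this, sin_add, sin_pi_div_two, cos_pi_div_two, cos_nat_mul_pi, sin_nat_mul_pi]
  ring

lemma cos_d_theta (k : ℕ) : cos ((d : ℝ) * theta d k) = 0 := by
  have hdr := d_pos_real hd
  have : (d : ℝ) * theta d k = π / 2 + (k : ℝ) * π := by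
    unfold theta
    field_simp
    ring
  rw [this, cos_add, sin_pi_div_two, cos_pi_div_two, sin_nat_mul_pi]
  ring

end

/-- The sine sums. -/
noncomputable def sinS (d : ℕ) (x : ℝ) : ℝ :=
  ∑ k ∈ range (2 * d), (-1 : ℝ) ^ k * lam d k * sin (x * theta d k)

section
variable {d : ℕ} (hd : 0 < d)
include hd

lemma cos_theta_eq (t : ℝ) : cos t = 1 - 2 * sin (t / 2) ^ 2 := by
  have h := cos_two_mul (t / 2)
  have h2 := sin_sq_add_cos_sq (t / 2)
  have : 2 * (t / 2) = t := by ring
  rw [this] at h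
  rw [h]
  linarith

lemma sinS_second_diff (x : ℝ) :
    sinS d (x + 2) - 2 * sinS d (x + 1) + sinS d x
      = -(1 / (d : ℝ)) * ∑ k ∈ range (2 * d), (-1 : ℝ) ^ k * sin ((x + 1) * theta d k) := by
  unfold sinS
  rw [Finset.mul_sum, Finset.mul_sum, ← Finset.sum_sub_distrib, ← Finset.sum_add_distrib]
  refine Finset.sum_congr rfl fun k hk => ?_
  have hk' := Finset.mem_range.mp hk
  have hl := lam_mul hd hk'
  set θ := theta d k with hθ
  have h1 : (x + 2) * θ = (x + 1) * θ + θ := by ring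
  have h2 : x * θ = (x + 1) * θ - θ := by ring
  rw [h1, h2, sin_add, sin_sub, cos_theta_eq hd θ]
  have hl' : 1 / (d : ℝ) = lam d k * (4 * sin (θ / 2) ^ 2) := hl.symm
  rw [hl']
  ring

lemma sinS_zero : sinS d 0 = 0 := by
  unfold sinS
  simp

lemma sinS_neg (x : ℝ) : sinS d (-x) = - sinS d x := by
  unfold sinS
  rw [← Finset.sum_neg_distrib]
  refine Finset.sum_congr rfl fun k _ => ?_
  rw [neg_mul, sin_neg]
  ring

lemma sinS_nat_linear (j : ℕ) (hj : j ≤ d) : sinS d j = j * sinS d 1 := by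
  induction j using Nat.twoStepInduction with
  | zero => simp [sinS_zero hd]
  | one => simp
  | more j ih1 ih2 =>
    have hj1 : j + 1 < d := by omega
    have h := sinS_second_diff hd (j : ℝ)
    have hz := alt_sin_sum hd hj1
    have e1 : ((j + 1 : ℕ) : ℝ) = (j : ℝ) + 1 := by push_cast; ring
    rw [e1] at hz
    rw [hz, mul_zero] at h
    have i1 := ih1 (by omega)
    have i2 := ih2 (by omega)
    rw [e1] at i2
    have e2 : ((j + 2 : ℕ) : ℝ) = (j : ℝ) + 2 := by push_cast; ring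
    rw [e2]
    rw [i1, i2] at h
    have : sinS d ((j:ℝ) + 2) = ((j:ℝ) + 2) * sinS d 1 := by linarith
    exact this

lemma sinS_one : sinS d 1 = 1 := by
  obtain ⟨e, rfl⟩ : ∃ e, d = e + 1 := ⟨d - 1, by omega⟩
  have h := sinS_second_diff hd (e : ℝ)
  have hcast : (e : ℝ) + 1 = ((e + 1 : ℕ) : ℝ) := by push_cast; ring
  have hsum : ∑ k ∈ range (2 * (e + 1)), (-1 : ℝ) ^ k * sin (((e : ℝ) + 1) * theta (e + 1) k)
      = 2 * ((e + 1 : ℕ) : ℝ) := by
    rw [hcast]
    have : ∀ k ∈ range (2 * (e + 1)),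
        (-1 : ℝ) ^ k * sin (((e + 1 : ℕ) : ℝ) * theta (e + 1) k) = 1 := by
      intro k _
      rw [sin_d_theta hd k, ← mul_pow]
      norm_num
    rw [Finset.sum_congr rfl this]
    simp
  rw [hsum] at h
  have htop : sinS (e + 1) ((e : ℝ) + 2) = sinS (e + 1) (e : ℝ) := by
    unfold sinS
    refine Finset.sum_congr rfl fun k _ => ?_
    have hc := cos_d_theta hd k
    rw [← hcast] at hc
    have h1 : ((e : ℝ) + 2) * theta (e + 1) k = ((e : ℝ) + 1) * theta (e + 1) k + theta (e + 1) k := by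
      ring
    have h2 : (e : ℝ) * theta (e + 1) k = ((e : ℝ) + 1) * theta (e + 1) k - theta (e + 1) k := by
      ring
    rw [h1, h2, sin_add, sin_sub, hc]
    ring
  have i1 := sinS_nat_linear hd e (by omega)
  have i2 := sinS_nat_linear hd (e + 1) (by omega)
  rw [← hcast] at h
  rw [htop] at h
  have hdr : (e : ℝ) + 1 ≠ 0 := by positivity
  have h3 : -(1 / ((e : ℝ) + 1)) * (2 * ((e : ℝ) + 1)) = -2 := by
    field_simp
  rw [h3] at h
  rw [← hcast] at i2
  rw [i1, i2] at h
  nlinarith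

lemma sinS_nat (j : ℕ) (hj : j ≤ d) : sinS d j = j := by
  rw [sinS_nat_linear hd j hj, sinS_one hd, mul_one]

lemma sinS_int (j : ℤ) (hj : |j| ≤ d) : sinS d j = j := by
  obtain ⟨m, rfl | rfl⟩ := Int.eq_nat_or_neg j
  · have : m ≤ d := by
      have := hj
      simp at this
      exact_mod_cast this
    simpa using sinS_nat hd m this
  · have : m ≤ d := by
      have := hj
      simp at this
      exact_mod_cast this
    push_cast
    rw [sinS_neg hd, sinS_nat hd m this]

/-- The sum of the weights is `d`. -/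
theorem sum_lam : ∑ k ∈ range (2 * d), lam d k = d := by
  have h := sinS_nat hd d le_rfl
  unfold sinS at h
  rw [← h]
  refine Finset.sum_congr rfl fun k _ => ?_
  rw [sin_d_theta hd k]
  have : (-1 : ℝ) ^ k * (-1 : ℝ) ^ k = 1 := by
    rw [← mul_pow]; norm_num
  calc lam d k = ((-1 : ℝ) ^ k * (-1 : ℝ) ^ k) * lam d k := by rw [this, one_mul]
    _ = _ := by ring

lemma moments (m : ℕ) : ∀ j : ℤ, (|j| + (m : ℤ) ≤ d) →
    (∑ k ∈ range (2 * d), (-1 : ℝ) ^ k * lam d k * (sin (theta d k) ^ m * cos ((j : ℝ) * theta d k))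
        = if m = 1 then 1 else 0) ∧
    (∑ k ∈ range (2 * d), (-1 : ℝ) ^ k * lam d k * (sin (theta d k) ^ m * sin ((j : ℝ) * theta d k))
        = if m = 0 then (j : ℝ) else 0) := by
  induction m with
  | zero =>
    intro j hj
    constructor
    · simp only [pow_zero, one_mul]
      simpa using cos_sum hd j
    · simp only [pow_zero, one_mul, if_true]
      have := sinS_int hd j (by simpa using hj)
      unfold sinS at this
      exact this
  | succ m ih =>
    intro j hj
    have hj1 : |j + 1| + (m : ℤ) ≤ d := by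
      have := abs_add_le j 1
      simp at this
      push_cast at hj
      linarith
    have hj2 : |j - 1| + (m : ℤ) ≤ d := by
      have := abs_sub j 1
      simp at this
      push_cast at hj
      linarith
    obtain ⟨a1, b1⟩ := ih (j + 1) hj1
    obtain ⟨a2, b2⟩ := ih (j - 1) hj2
    constructor
    · have key : ∑ k ∈ range (2 * d), (-1 : ℝ) ^ k * lam d k
            * (sin (theta d k) ^ (m + 1) * cos ((j : ℝ) * theta d k))
          = (∑ k ∈ range (2 * d), (-1 : ℝ) ^ k * lam d k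
                * (sin (theta d k) ^ m * sin (((j + 1 : ℤ) : ℝ) * theta d k))
              - ∑ k ∈ range (2 * d), (-1 : ℝ) ^ k * lam d k
                * (sin (theta d k) ^ m * sin (((j - 1 : ℤ) : ℝ) * theta d k))) / 2 := by
        rw [← Finset.sum_sub_distrib, Finset.sum_div]
        refine Finset.sum_congr rfl fun k _ => ?_
        push_cast
        set θ := theta d k
        have h1 : ((j : ℝ) + 1) * θ = (j : ℝ) * θ + θ := by ring
        have h2 : ((j : ℝ) - 1) * θ = (j : ℝ) * θ - θ := by ring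
        rw [h1, h2, sin_add, sin_sub, pow_succ]
        ring
      rw [key, b1, b2]
      by_cases hm : m = 0
      · subst hm
        simp
      · simp [hm]
    · have key : ∑ k ∈ range (2 * d), (-1 : ℝ) ^ k * lam d k
            * (sin (theta d k) ^ (m + 1) * sin ((j : ℝ) * theta d k))
          = (∑ k ∈ range (2 * d), (-1 : ℝ) ^ k * lam d k
                * (sin (theta d k) ^ m * cos (((j - 1 : ℤ) : ℝ) * theta d k))
              - ∑ k ∈ range (2 * d), (-1 : ℝ) ^ k * lam d k
                * (sin (theta d k) ^ m * cos (((j + 1 : ℤ) : ℝ) * theta d k))) / 2 := by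
        rw [← Finset.sum_sub_distrib, Finset.sum_div]
        refine Finset.sum_congr rfl fun k _ => ?_
        push_cast
        set θ := theta d k
        have h1 : ((j : ℝ) + 1) * θ = (j : ℝ) * θ + θ := by ring
        have h2 : ((j : ℝ) - 1) * θ = (j : ℝ) * θ - θ := by ring
        rw [h1, h2, cos_add, cos_sub, pow_succ]
        ring
      rw [key, a1, a2]
      simp

/-- M. Riesz interpolation on the monomials of degree at most `d`. -/
theorem riesz_pow (m : ℕ) (hm : m ≤ d) :
    ∑ k ∈ range (2 * d), (-1 : ℝ) ^ k * lam d k * sin (theta d k) ^ m = if m = 1 then 1 else 0 := by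
  have h := (moments hd m 0 (by simpa using hm)).1
  simpa using h

end

end Vale.Agent.P047
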