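import Vale.Agent.P047.Biased
import Vale.Agent.P047.Riesz

/-!
Comparison for the differential inequality `(1-t^2) P' ≤ d (1 - P^2)` and the final estimate
`∑ i, fhat f {i} ≤ (97/100) d`.
-/

namespace Vale.Agent.P047

open Finset Real

/-- The monotone quantity. -/
noncomputable def ratioR (P : ℝ → ℝ) (e : ℕ) (t : ℝ) : ℝ :=
  ((1 + P t) * (1 - t) ^ (e + 1)) / ((1 - P t) * (1 + t) ^ (e + 1))

lemma ratioR_hasDerivAt {P : ℝ → ℝ} {P' : ℝ} {e : ℕ} {t : ℝ} (hP : HasDerivAt P P' t)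
    (hv : (1 - P t) * (1 + t) ^ (e + 1) ≠ 0) :
    HasDerivAt (ratioR P e)
      (((P' * (1 - t) ^ (e + 1) + (1 + P t) * (((e + 1 : ℕ) : ℝ) * (1 - t) ^ e * (-1)))
          * ((1 - P t) * (1 + t) ^ (e + 1))
        - ((1 + P t) * (1 - t) ^ (e + 1))
          * ((-P') * (1 + t) ^ (e + 1) + (1 - P t) * (((e + 1 : ℕ) : ℝ) * (1 + t) ^ e * 1)))
        / ((1 - P t) * (1 + t) ^ (e + 1)) ^ 2) t := by
  have h1 : HasDerivAt (fun t => 1 + P t) P' t := hP.const_add 1
  have h2 : HasDerivAt (fun t => 1 - P t) (-P') t := hP.const_sub 1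
  have h3 : HasDerivAt (fun t : ℝ => 1 - t) (-1) t := (hasDerivAt_id t).const_sub 1
  have h4 : HasDerivAt (fun t : ℝ => 1 + t) 1 t := (hasDerivAt_id t).const_add 1
  have h5 : HasDerivAt (fun t : ℝ => (1 - t) ^ (e + 1)) (((e + 1 : ℕ) : ℝ) * (1 - t) ^ e * (-1)) t := by
    simpa using h3.fun_pow (e + 1)
  have h6 : HasDerivAt (fun t : ℝ => (1 + t) ^ (e + 1)) (((e + 1 : ℕ) : ℝ) * (1 + t) ^ e * 1) t := by
    simpa using h4.fun_pow (e + 1)
  exact (h1.mul h5).div (h2.mul h6) hv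

/-- The comparison theorem. -/
theorem ratio_compare {P P' : ℝ → ℝ} {e : ℕ} {s : ℝ} (hs0 : 0 ≤ s) (hs1 : s < 1)
    (hder : ∀ t ∈ Set.Icc (-s) s, HasDerivAt P (P' t) t)
    (hbd : ∀ t ∈ Set.Icc (-s) s, |P t| < 1)
    (hode : ∀ t ∈ Set.Icc (-s) s, (1 - t ^ 2) * P' t ≤ ((e + 1 : ℕ) : ℝ) * (1 - (P t) ^ 2)) :
    ratioR P e s ≤ ratioR P e (-s) := by
  have hv : ∀ t ∈ Set.Icc (-s) s, (1 - P t) * (1 + t) ^ (e + 1) ≠ 0 := by
    intro t ht
    have h1 := (abs_lt.mp (hbd t ht)).2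
    have h2 : 0 < 1 + t := by linarith [ht.1]
    have h3 : 0 < 1 - P t := by linarith
    positivity
  have hanti : AntitoneOn (ratioR P e) (Set.Icc (-s) s) := by
    apply antitoneOn_of_deriv_nonpos (convex_Icc _ _)
    · intro t ht
      exact (ratioR_hasDerivAt (hder t ht) (hv t ht)).continuousAt.continuousWithinAt
    · intro t ht
      have ht' := interior_subset ht
      exact (ratioR_hasDerivAt (hder t ht') (hv t ht')).differentiableAt.differentiableWithinAt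
    · intro t ht
      have ht' := interior_subset ht
      rw [(ratioR_hasDerivAt (hder t ht') (hv t ht')).deriv]
      apply div_nonpos_of_nonpos_of_nonneg _ (sq_nonneg _)
      have h1 : 0 < 1 - t := by linarith [ht'.2]
      have h2 : 0 < 1 + t := by linarith [ht'.1]
      have hk := hode t ht'
      have hpos : 0 ≤ (1 - t) ^ e * (1 + t) ^ e := by positivity
      have key : (P' t * (1 - t) ^ (e + 1) + (1 + P t) * (((e + 1 : ℕ) : ℝ) * (1 - t) ^ e * (-1)))
            * ((1 - P t) * (1 + t) ^ (e + 1))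
          - ((1 + P t) * (1 - t) ^ (e + 1))
            * ((-P' t) * (1 + t) ^ (e + 1) + (1 - P t) * (((e + 1 : ℕ) : ℝ) * (1 + t) ^ e * 1))
          = 2 * ((1 - t) ^ e * (1 + t) ^ e)
            * ((1 - t ^ 2) * P' t - ((e + 1 : ℕ) : ℝ) * (1 - (P t) ^ 2)) := by
        rw [pow_succ (1 - t) e, pow_succ (1 + t) e]
        ring
      rw [key]
      have : (1 - t ^ 2) * P' t - ((e + 1 : ℕ) : ℝ) * (1 - (P t) ^ 2) ≤ 0 := by linarith
      exact mul_nonpos_of_nonneg_of_nonpos (by positivity) this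
  exact hanti ⟨le_rfl, by linarith⟩ ⟨by linarith, le_rfl⟩ (by linarith)

/-- Consequence of the comparison in terms of a difference. -/
lemma diff_of_ratio {a b A : ℝ} (ha : |a| < 1) (hb : |b| < 1) (hA : 1 ≤ A) (hA43 : A ≤ 43)
    (h : (1 + b) * (1 - a) ≤ A ^ 2 * ((1 - b) * (1 + a))) : b - a ≤ 21 / 11 := by
  have ha' := abs_lt.mp ha
  have hb' := abs_lt.mp hb
  set D := b - a with hD
  have hD2 : D < 2 := by rw [hD]; linarith [ha'.1, hb'.2]
  have h1 : (A ^ 2 + 1) * D ≤ (A ^ 2 - 1) * (1 - a * b) := by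
    rw [hD]; nlinarith
  have h2 : 1 - a * b ≤ 1 + D ^ 2 / 4 := by
    rw [hD]; nlinarith [sq_nonneg (a + b)]
  have hA2 : 0 ≤ A ^ 2 - 1 := by nlinarith
  have h3 : (A ^ 2 + 1) * D ≤ (A ^ 2 - 1) * (1 + D ^ 2 / 4) :=
    h1.trans (mul_le_mul_of_nonneg_left h2 hA2)
  have h4 : 0 ≤ ((A - 1) * D - 2 * (A + 1)) * ((A + 1) * D - 2 * (A - 1)) := by nlinarith
  have h5 : (A - 1) * D - 2 * (A + 1) < 0 := by nlinarith
  have h6 : (A + 1) * D - 2 * (A - 1) ≤ 0 := by
    by_contra hcon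
    push_neg at hcon
    have := mul_neg_of_neg_of_pos h5 hcon
    linarith
  by_contra hcon
  push_neg at hcon
  nlinarith

/-- The difference bound for a function with values in `[-1,1]` satisfying the differential
inequality on `[-s,s]`, given `((1+s)/(1-s))^(e+1) ≤ 43`. -/
theorem diff_bound {P P' : ℝ → ℝ} {e : ℕ} {s : ℝ} (hs0 : 0 ≤ s) (hs1 : s < 1)
    (hA : ((1 + s) / (1 - s)) ^ (e + 1) ≤ 43)
    (hder : ∀ t ∈ Set.Icc (-s) s, HasDerivAt P (P' t) t)
    (hbd : ∀ t ∈ Set.Icc (-s) s, (P t) ^ 2 ≤ 1)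
    (hode : ∀ t ∈ Set.Icc (-s) s, (1 - t ^ 2) * P' t ≤ ((e + 1 : ℕ) : ℝ) * (1 - (P t) ^ 2)) :
    P s - P (-s) ≤ 21 / 11 := by
  by_contra hcon
  push_neg at hcon
  set D := P s - P (-s) with hD
  have hDpos : 0 < D := by linarith
  set κ : ℝ := (21 / 11 + D) / (2 * D) with hκ
  have hκpos : 0 < κ := by rw [hκ]; positivity
  have hκlt : κ < 1 := by
    rw [hκ, div_lt_one (by positivity)]
    linarith
  have hκD : κ * D = (21 / 11 + D) / 2 := by
    rw [hκ]
    field_simp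
  have hbdκ : ∀ t ∈ Set.Icc (-s) s, |κ * P t| < 1 := by
    intro t ht
    have h1 := hbd t ht
    have h2 : |P t| ≤ 1 := by
      rw [← abs_one, ← sq_le_sq]
      simpa using h1
    rw [abs_mul, abs_of_pos hκpos]
    nlinarith [abs_nonneg (P t)]
  have hcomp := ratio_compare (P := fun t => κ * P t) (P' := fun t => κ * P' t) (e := e) hs0 hs1
    (fun t ht => (hder t ht).const_mul κ) hbdκ (by
      intro t ht
      have h1 := hode t ht
      have h2 := hbd t ht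
      have h3 : (1 - t ^ 2) * (κ * P' t) = κ * ((1 - t ^ 2) * P' t) := by ring
      show (1 - t ^ 2) * (κ * P' t) ≤ ((e + 1 : ℕ) : ℝ) * (1 - (κ * P t) ^ 2)
      rw [h3]
      have h4 : κ * ((1 - t ^ 2) * P' t) ≤ κ * (((e + 1 : ℕ) : ℝ) * (1 - (P t) ^ 2)) :=
        mul_le_mul_of_nonneg_left h1 hκpos.le
      refine h4.trans ?_
      have hd0 : (0 : ℝ) ≤ ((e + 1 : ℕ) : ℝ) := Nat.cast_nonneg _
      have h5 : κ * (1 - (P t) ^ 2) ≤ 1 - (κ * P t) ^ 2 := by
        have : 1 - (κ * P t) ^ 2 - κ * (1 - (P t) ^ 2) = (1 - κ) * (1 + κ * (P t) ^ 2) := by ring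
        have h6 : 0 ≤ (1 - κ) * (1 + κ * (P t) ^ 2) := by
          apply mul_nonneg (by linarith)
          positivity
        linarith
      calc κ * (((e + 1 : ℕ) : ℝ) * (1 - (P t) ^ 2))
          = ((e + 1 : ℕ) : ℝ) * (κ * (1 - (P t) ^ 2)) := by ring
        _ ≤ _ := mul_le_mul_of_nonneg_left h5 hd0)
  have hsm : s ∈ Set.Icc (-s) s := ⟨by linarith, le_rfl⟩
  have hnm : -s ∈ Set.Icc (-s) s := ⟨le_rfl, by linarith⟩
  set a := κ * P (-s) with ha
  set b := κ * P s with hb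
  have hab : b - a = κ * D := by rw [ha, hb, hD]; ring
  have hA1 : 1 ≤ ((1 + s) / (1 - s)) ^ (e + 1) := by
    apply one_le_pow₀
    rw [one_le_div (by linarith)]
    linarith
  have habs : |a| < 1 := hbdκ _ hnm
  have hbbs : |b| < 1 := hbdκ _ hsm
  have h1a : 0 < 1 - a := by linarith [(abs_lt.mp habs).2]
  have h1b : 0 < 1 - b := by linarith [(abs_lt.mp hbbs).2]
  have hps : 0 < 1 + s := by linarith
  have hms : 0 < 1 - s := by linarith
  have hcross : (1 + b) * (1 - a) ≤ (((1 + s) / (1 - s)) ^ (e + 1)) ^ 2 * ((1 - b) * (1 + a)) := by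
    unfold ratioR at hcomp
    simp only [← ha, ← hb] at hcomp
    have e1 : (1 + -s) = 1 - s := by ring
    have e2 : (1 - -s) = 1 + s := by ring
    rw [e1, e2, div_le_div_iff₀ (by positivity) (by positivity)] at hcomp
    have hpA : (((1 + s) / (1 - s)) ^ (e + 1)) ^ 2
        = (1 + s) ^ (e + 1) * (1 + s) ^ (e + 1) / ((1 - s) ^ (e + 1) * (1 - s) ^ (e + 1)) := by
      rw [div_pow, div_pow]
      field_simp
    rw [hpA, div_mul_eq_mul_div, le_div_iff₀ (by positivity)]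
    have hpos1 : 0 < (1 - s) ^ (e + 1) * (1 + s) ^ (e + 1) := by positivity
    nlinarith [hcomp]
  have := diff_of_ratio habs hbbs hA1 hA hcross
  rw [hab, hκD] at this
  linarith

end Vale.Agent.P047
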