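import Vale.Agent.P047.Defs

/-!
Fractional subcube partitions: if `∑_j λ_j 1_{C_j} = 1` on the cube, with `λ_j ≥ 0`, the `C_j`
subcubes and `f` Boolean and constant on every `C_j` with `λ_j > 0`, then the first-level sum of
`f` is at most the square root of the average codimension `∑_j λ_j 2^{-|I_j|} |I_j|`.
-/

namespace Vale.Agent.P047

open Finset

variable {n : ℕ}

/-- The indicator of a subcube times a character, summed over the cube. -/
lemma sum_cell_chi (I T : Finset (Fin n)) (c : Fin n → Bool) :
    (∑ x : Fin n → Bool, (if ∀ i ∈ I, x i = c i then (1 : ℝ) else 0) * chi T x) / 2 ^ n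
      = (if T ⊆ I then ∏ i ∈ T, spin (c i) else 0) / 2 ^ I.card := by
  classical
  have hfactor : ∀ x : Fin n → Bool,
      (if ∀ i ∈ I, x i = c i then (1 : ℝ) else 0) * chi T x
        = ∏ i, ((if i ∈ I then (if x i = c i then (1 : ℝ) else 0) else 1)
            * (if i ∈ T then spin (x i) else 1)) := by
    intro x
    rw [Finset.prod_mul_distrib]
    congr 1
    · by_cases h : ∀ i ∈ I, x i = c i
      · rw [if_pos h]
        symm
        apply Finset.prod_eq_one
        intro i _
        by_cases hi : i ∈ I
        · simp [hi, h i hi]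
        · simp [hi]
      · rw [if_neg h]
        push Not at h
        obtain ⟨i, hi, hne⟩ := h
        symm
        apply Finset.prod_eq_zero (Finset.mem_univ i)
        simp [hi, hne]
    · unfold chi
      rw [Finset.prod_ite_mem]
      simp
  have hsum : (∑ x : Fin n → Bool, (if ∀ i ∈ I, x i = c i then (1 : ℝ) else 0) * chi T x)
      = ∏ i, ∑ b : Bool, ((if i ∈ I then (if b = c i then (1 : ℝ) else 0) else 1)
            * (if i ∈ T then spin b else 1)) := by
    rw [Finset.prod_univ_sum]
    simp only [Fintype.piFinset_univ]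
    exact Finset.sum_congr rfl (fun x _ => hfactor x)
  have hfac : ∀ i : Fin n, ∑ b : Bool, ((if i ∈ I then (if b = c i then (1 : ℝ) else 0) else 1)
        * (if i ∈ T then spin b else 1))
      = if i ∈ I then (if i ∈ T then spin (c i) else 1) else (if i ∈ T then 0 else 2) := by
    intro i
    rw [Fintype.sum_bool]
    by_cases hI : i ∈ I <;> by_cases hT : i ∈ T <;> cases hc : c i <;>
      simp [hI, hT, spin] <;> norm_num
  rw [hsum]
  simp only [hfac]
  by_cases hTI : T ⊆ I
  · rw [if_pos hTI]
    have h1 : ∀ i : Fin n,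
        (if i ∈ I then (if i ∈ T then spin (c i) else 1) else (if i ∈ T then (0:ℝ) else 2))
          = (if i ∈ T then spin (c i) else 1) * (if i ∈ I then 1 else 2) := by
      intro i
      by_cases hI : i ∈ I
      · simp [hI]
      · have hT : i ∉ T := fun h => hI (hTI h)
        simp [hI, hT]
    simp only [h1]
    rw [Finset.prod_mul_distrib, Finset.prod_ite_mem]
    have h2 : ∏ i : Fin n, (if i ∈ I then (1:ℝ) else 2) = 2 ^ (n - I.card) := by
      rw [Finset.prod_ite]
      simp only [Finset.prod_const_one, one_mul, Finset.prod_const]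
      congr 1
      have : (Finset.univ.filter (fun i : Fin n => i ∉ I)) = Iᶜ := by
        ext i; simp
      rw [this, Finset.card_compl, Fintype.card_fin]
    rw [h2]
    have hcard : I.card ≤ n := by
      simpa using Finset.card_le_univ I
    have h3 : (2:ℝ) ^ n = 2 ^ (n - I.card) * 2 ^ I.card := by
      rw [← pow_add, Nat.sub_add_cancel hcard]
    rw [h3]
    have h4 : (2:ℝ) ^ (n - I.card) ≠ 0 := by positivity
    have h5 : (2:ℝ) ^ I.card ≠ 0 := by positivity
    simp only [Finset.univ_inter]
    field_simp
  · rw [if_neg hTI]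
    rw [Finset.not_subset] at hTI
    obtain ⟨i, hiT, hiI⟩ := hTI
    rw [Finset.prod_eq_zero (Finset.mem_univ i) (by simp [hiT, hiI])]
    simp

/-- The sign-weighted width of a cell. -/
noncomputable def cellWeight (I : Finset (Fin n)) (c : Fin n → Bool) : ℝ :=
  ∑ i ∈ I, spin (c i)

lemma spin_sq (b : Bool) : spin b * spin b = 1 := by
  cases b <;> simp [spin]

lemma chi_singleton (i : Fin n) (x : Fin n → Bool) : chi {i} x = spin (x i) := by
  simp [chi]

lemma chi_empty (x : Fin n → Bool) : chi (∅ : Finset (Fin n)) x = 1 := by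
  simp [chi]

lemma chi_pair {i k : Fin n} (h : i ≠ k) (x : Fin n → Bool) :
    chi {i, k} x = spin (x i) * spin (x k) := by
  simp [chi, Finset.prod_pair h]

lemma sum_chi_of_nonempty (T : Finset (Fin n)) (hT : T.Nonempty) :
    (∑ x : Fin n → Bool, chi T x) = 0 := by
  have h := sum_cell_chi (∅ : Finset (Fin n)) T (fun _ => true)
  have h0 : ¬ T ⊆ ∅ := by
    intro hs
    obtain ⟨i, hi⟩ := hT
    simpa using hs hi
  rw [if_neg h0] at h
  simp only [Finset.notMem_empty, IsEmpty.forall_iff, implies_true, ↓reduceIte, one_mul,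
    Finset.card_empty, pow_zero, zero_div] at h
  have h2 : (2:ℝ) ^ n ≠ 0 := by positivity
  rcases (div_eq_zero_iff.mp h) with h | h
  · exact h
  · exact absurd h h2

variable {J : Type*} [Fintype J]

/-- The main computation: for a fractional subcube partition the weights `2^{-|I_j|} λ_j` are
a probability vector, and the second moment of the signed widths is the mean width. -/
theorem first_moment_partition (I : J → Finset (Fin n)) (c : J → Fin n → Bool) (lam : J → ℝ)
    (hcover : ∀ x : Fin n → Bool,
      ∑ j, (if ∀ i ∈ I j, x i = c j i then lam j else 0) = 1) :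
    ∑ j, lam j / 2 ^ (I j).card = 1 := by
  classical
  have key : ∀ j, lam j / 2 ^ (I j).card =
      lam j * ((∑ x : Fin n → Bool, (if ∀ i ∈ I j, x i = c j i then (1 : ℝ) else 0)
        * chi ∅ x) / 2 ^ n) := by
    intro j
    rw [sum_cell_chi]
    simp [div_eq_mul_inv]
  have h2 : (2:ℝ) ^ n ≠ 0 := by positivity
  simp only [key]
  have : ∀ j, lam j * ((∑ x : Fin n → Bool, (if ∀ i ∈ I j, x i = c j i then (1 : ℝ) else 0)
        * chi ∅ x) / 2 ^ n) = (∑ x : Fin n → Bool, (if ∀ i ∈ I j, x i = c j i then lam j else 0))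
          / 2 ^ n := by
    intro j
    rw [← mul_div_assoc, Finset.mul_sum]
    congr 1
    apply Finset.sum_congr rfl
    intro x _
    rw [chi_empty]
    split_ifs <;> simp
  simp only [this]
  rw [← Finset.sum_div, Finset.sum_comm]
  simp only [hcover]
  simp [Fintype.card_pi, h2]

/-- Swapping: the pair correlations of a fractional subcube partition vanish. -/
theorem pair_partition (I : J → Finset (Fin n)) (c : J → Fin n → Bool) (lam : J → ℝ)
    (hcover : ∀ x : Fin n → Bool,
      ∑ j, (if ∀ i ∈ I j, x i = c j i then lam j else 0) = 1)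
    {i k : Fin n} (hik : i ≠ k) :
    ∑ j, lam j * (if {i, k} ⊆ I j then spin (c j i) * spin (c j k) else 0) / 2 ^ (I j).card
      = 0 := by
  classical
  have key : ∀ j, lam j * (if {i, k} ⊆ I j then spin (c j i) * spin (c j k) else 0)
        / 2 ^ (I j).card =
      (∑ x : Fin n → Bool, (if ∀ i ∈ I j, x i = c j i then lam j else 0)
        * chi {i, k} x) / 2 ^ n := by
    intro j
    have h := sum_cell_chi (I j) {i, k} (c j)
    rw [Finset.prod_pair hik] at h
    rw [mul_div_assoc, ← h, ← mul_div_assoc, Finset.mul_sum]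
    congr 1
    apply Finset.sum_congr rfl
    intro x _
    split_ifs <;> simp
  simp only [key]
  rw [← Finset.sum_div, Finset.sum_comm]
  have : ∀ x : Fin n → Bool, ∑ j, (if ∀ i ∈ I j, x i = c j i then lam j else 0) * chi {i, k} x
      = chi {i, k} x := by
    intro x
    rw [← Finset.sum_mul, hcover x, one_mul]
  simp only [this]
  rw [sum_chi_of_nonempty _ (by simp)]
  simp

theorem second_moment_partition (I : J → Finset (Fin n)) (c : J → Fin n → Bool) (lam : J → ℝ)
    (hcover : ∀ x : Fin n → Bool,
      ∑ j, (if ∀ i ∈ I j, x i = c j i then lam j else 0) = 1) :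
    ∑ j, lam j / 2 ^ (I j).card * (cellWeight (I j) (c j)) ^ 2
      = ∑ j, lam j * (I j).card / 2 ^ (I j).card := by
  classical
  -- expand the square over ordered pairs of coordinates
  have hexp : ∀ j, lam j / 2 ^ (I j).card * (cellWeight (I j) (c j)) ^ 2
      = ∑ i, ∑ k, lam j * (if i ∈ I j ∧ k ∈ I j then spin (c j i) * spin (c j k) else 0)
          / 2 ^ (I j).card := by
    intro j
    have : (cellWeight (I j) (c j)) ^ 2
        = ∑ i, ∑ k, (if i ∈ I j ∧ k ∈ I j then spin (c j i) * spin (c j k) else 0) := by
      unfold cellWeight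
      rw [sq, Finset.sum_mul_sum]
      rw [← Finset.sum_filter_add_sum_filter_not Finset.univ (fun i => i ∈ I j)]
      have hf : (Finset.univ.filter (fun i => i ∈ I j)) = I j := by ext; simp
      rw [hf]
      have hz : ∑ x ∈ Finset.univ.filter (fun i => i ∉ I j),
          ∑ k, (if x ∈ I j ∧ k ∈ I j then spin (c j x) * spin (c j k) else 0) = 0 := by
        apply Finset.sum_eq_zero
        intro x hx
        have hx' : x ∉ I j := by simpa using hx
        simp [hx']
      rw [hz, add_zero]
      apply Finset.sum_congr rfl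
      intro i hi
      rw [← Finset.sum_filter_add_sum_filter_not Finset.univ (fun k => k ∈ I j)]
      rw [hf]
      have hz2 : ∑ x ∈ Finset.univ.filter (fun k => k ∉ I j),
          (if i ∈ I j ∧ x ∈ I j then spin (c j i) * spin (c j x) else 0) = 0 := by
        apply Finset.sum_eq_zero
        intro x hx
        have hx' : x ∉ I j := by simpa using hx
        simp [hx']
      rw [hz2, add_zero]
      apply Finset.sum_congr rfl
      intro k hk
      simp [hi, hk]
    rw [this, Finset.mul_sum]
    apply Finset.sum_congr rfl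
    intro i _
    rw [Finset.mul_sum]
    apply Finset.sum_congr rfl
    intro k _
    ring
  simp only [hexp]
  rw [Finset.sum_comm]
  have hi : ∀ i : Fin n, ∑ j, ∑ k, lam j *
        (if i ∈ I j ∧ k ∈ I j then spin (c j i) * spin (c j k) else 0) / 2 ^ (I j).card
      = ∑ j, lam j * (if i ∈ I j then 1 else 0) / 2 ^ (I j).card := by
    intro i
    rw [Finset.sum_comm]
    rw [← Finset.add_sum_erase Finset.univ _ (Finset.mem_univ i)]
    have hz : ∑ k ∈ Finset.univ.erase i, ∑ j, lam j *
        (if i ∈ I j ∧ k ∈ I j then spin (c j i) * spin (c j k) else 0) / 2 ^ (I j).card = 0 := by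
      apply Finset.sum_eq_zero
      intro k hk
      have hik : i ≠ k := by
        intro h
        subst h
        simp at hk
      refine Eq.trans ?_ (pair_partition I c lam hcover hik)
      apply Finset.sum_congr rfl
      intro j _
      have : (({i, k} : Finset (Fin n)) ⊆ I j) ↔ (i ∈ I j ∧ k ∈ I j) := by
        rw [Finset.insert_subset_iff, Finset.singleton_subset_iff]
      by_cases h1 : i ∈ I j ∧ k ∈ I j
      · rw [if_pos h1, if_pos (this.mpr h1)]
      · rw [if_neg h1, if_neg (fun h => h1 (this.mp h))]
    rw [hz, add_zero]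
    apply Finset.sum_congr rfl
    intro j _
    by_cases h : i ∈ I j
    · simp [h, spin_sq]
    · simp [h]
  simp only [hi]
  rw [Finset.sum_comm]
  apply Finset.sum_congr rfl
  intro j _
  rw [← Finset.sum_div, ← Finset.mul_sum]
  congr 2
  simp

/-- The first-level sum in terms of a fractional subcube partition on whose cells `f` is
constant. -/
theorem first_level_eq_partition (I : J → Finset (Fin n)) (c : J → Fin n → Bool) (lam : J → ℝ)
    (hcover : ∀ x : Fin n → Bool,
      ∑ j, (if ∀ i ∈ I j, x i = c j i then lam j else 0) = 1)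
    (f : (Fin n → Bool) → ℝ)
    (hconst : ∀ j, lam j ≠ 0 → ∀ x, (∀ i ∈ I j, x i = c j i) → f x = f (c j)) :
    ∑ i, fhat f {i} = ∑ j, lam j / 2 ^ (I j).card * f (c j) * cellWeight (I j) (c j) := by
  classical
  have h1 : ∀ i : Fin n, fhat f {i}
      = ∑ j, lam j * f (c j) * ((∑ x : Fin n → Bool,
          (if ∀ i ∈ I j, x i = c j i then (1:ℝ) else 0) * chi {i} x) / 2 ^ n) := by
    intro i
    unfold fhat
    simp only [← mul_div_assoc]
    rw [← Finset.sum_div]
    congr 1
    have : ∀ x : Fin n → Bool, f x * chi {i} x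
        = ∑ j, lam j * f (c j) *
          ((if ∀ i ∈ I j, x i = c j i then (1:ℝ) else 0) * chi {i} x) := by
      intro x
      have hx := hcover x
      calc f x * chi {i} x = (∑ j, (if ∀ i ∈ I j, x i = c j i then lam j else 0))
              * (f x * chi {i} x) := by rw [hx, one_mul]
        _ = _ := by
          rw [Finset.sum_mul]
          apply Finset.sum_congr rfl
          intro j _
          by_cases hj : ∀ i ∈ I j, x i = c j i
          · simp only [if_pos hj]
            by_cases hl : lam j = 0
            · simp [hl]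
            · rw [hconst j hl x hj]
              ring
          · simp [if_neg hj]
    simp only [this]
    rw [Finset.sum_comm]
    apply Finset.sum_congr rfl
    intro j _
    rw [Finset.mul_sum]
  simp only [h1]
  rw [Finset.sum_comm]
  apply Finset.sum_congr rfl
  intro j _
  rw [← Finset.mul_sum]
  have h2 : ∀ i : Fin n, (∑ x : Fin n → Bool,
          (if ∀ i ∈ I j, x i = c j i then (1:ℝ) else 0) * chi {i} x) / 2 ^ n
      = (if i ∈ I j then spin (c j i) else 0) / 2 ^ (I j).card := by
    intro i
    rw [sum_cell_chi]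
    simp
  simp only [h2]
  unfold cellWeight
  rw [← Finset.sum_div]
  have h3 : ∑ i, (if i ∈ I j then spin (c j i) else 0) = ∑ i ∈ I j, spin (c j i) := by
    rw [Finset.sum_ite_mem]
    simp
  rw [h3]
  ring

/-- **Square-root bound for fractional subcube partitions.** -/
theorem first_level_le_sqrt (I : J → Finset (Fin n)) (c : J → Fin n → Bool) (lam : J → ℝ)
    (hlam : ∀ j, 0 ≤ lam j)
    (hcover : ∀ x : Fin n → Bool,
      ∑ j, (if ∀ i ∈ I j, x i = c j i then lam j else 0) = 1)
    (f : (Fin n → Bool) → ℝ) (hf : ∀ x, f x = 1 ∨ f x = -1)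
    (hconst : ∀ j, lam j ≠ 0 → ∀ x, (∀ i ∈ I j, x i = c j i) → f x = f (c j)) :
    ∑ i, fhat f {i} ≤ Real.sqrt (∑ j, lam j * (I j).card / 2 ^ (I j).card) := by
  classical
  rw [first_level_eq_partition I c lam hcover f hconst]
  apply Real.le_sqrt_of_sq_le
  set w : J → ℝ := fun j => lam j / 2 ^ (I j).card with hw
  have hw0 : ∀ j, 0 ≤ w j := fun j => div_nonneg (hlam j) (by positivity)
  have hsum1 : ∑ j, w j = 1 := first_moment_partition I c lam hcover
  have hsum2 : ∑ j, w j * (cellWeight (I j) (c j)) ^ 2
      = ∑ j, lam j * (I j).card / 2 ^ (I j).card :=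
    second_moment_partition I c lam hcover
  rw [← hsum2]
  -- Cauchy-Schwarz with weights `w`
  have hcs := Finset.sum_mul_sq_le_sq_mul_sq (Finset.univ : Finset J)
    (fun j => Real.sqrt (w j) * f (c j)) (fun j => Real.sqrt (w j) * cellWeight (I j) (c j))
  have e1 : ∀ j, (Real.sqrt (w j) * f (c j)) * (Real.sqrt (w j) * cellWeight (I j) (c j))
      = w j * f (c j) * cellWeight (I j) (c j) := by
    intro j
    have := Real.mul_self_sqrt (hw0 j)
    calc _ = (Real.sqrt (w j) * Real.sqrt (w j)) * f (c j) * cellWeight (I j) (c j) := by ring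
      _ = _ := by rw [this]
  have e2 : ∀ j, (Real.sqrt (w j) * f (c j)) ^ 2 = w j := by
    intro j
    have h1 := Real.sq_sqrt (hw0 j)
    have h2 : f (c j) ^ 2 = 1 := by
      rcases hf (c j) with h | h <;> rw [h] <;> norm_num
    rw [mul_pow, h1, h2, mul_one]
  have e3 : ∀ j, (Real.sqrt (w j) * cellWeight (I j) (c j)) ^ 2
      = w j * (cellWeight (I j) (c j)) ^ 2 := by
    intro j
    rw [mul_pow, Real.sq_sqrt (hw0 j)]
  simp only [e1, e2, e3] at hcs
  rw [hsum1, one_mul] at hcs
  exact hcs

/-- The mean width is at most any upper bound for the widths. -/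
theorem mean_width_le (I : J → Finset (Fin n)) (c : J → Fin n → Bool) (lam : J → ℝ)
    (hlam : ∀ j, 0 ≤ lam j)
    (hcover : ∀ x : Fin n → Bool,
      ∑ j, (if ∀ i ∈ I j, x i = c j i then lam j else 0) = 1)
    (D : ℕ) (hD : ∀ j, lam j ≠ 0 → (I j).card ≤ D) :
    ∑ j, lam j * (I j).card / 2 ^ (I j).card ≤ D := by
  have h1 := first_moment_partition I c lam hcover
  calc ∑ j, lam j * (I j).card / 2 ^ (I j).card
      ≤ ∑ j, lam j / 2 ^ (I j).card * D := by
        apply Finset.sum_le_sum
        intro j _
        by_cases hl : lam j = 0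
        · simp [hl]
        · have := hD j hl
          have h2 : ((I j).card : ℝ) ≤ D := by exact_mod_cast this
          have h3 : 0 ≤ lam j / 2 ^ (I j).card := div_nonneg (hlam j) (by positivity)
          calc lam j * (I j).card / 2 ^ (I j).card
              = lam j / 2 ^ (I j).card * (I j).card := by ring
            _ ≤ _ := mul_le_mul_of_nonneg_left h2 h3
    _ = D := by rw [← Finset.sum_mul, h1, one_mul]

end Vale.Agent.P047
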