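import Vale.Agent.P047.Subcube

/-!
Linear threshold functions: if `f` is Boolean of degree at most `d`, and `x` is a point and `T` a
set of coordinates such that `f` takes the value `-f x` at every other point of the subcube through
`x` with free coordinates `T`, then `|T| ≤ d` (`block_card_le`).  For a threshold function with a
relevant coordinate `w` of smallest weight, the two ends of a pivotal edge in direction `w` carry
such blocks which together cover all relevant coordinates, so the number of relevant coordinates is
at most `2 d - 1`; Bessel and Cauchy-Schwarz finish.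
-/

namespace Vale.Agent.P047

open Finset

variable {n : ℕ}

/-- The indicator of the subcube through `c` with free coordinates outside `I`, expanded in characters. -/
lemma cell_expand (I : Finset (Fin n)) (c y : Fin n → Bool) :
    (if ∀ i ∈ I, y i = c i then (1 : ℝ) else 0)
      = (∑ U ∈ I.powerset, chi U c * chi U y) / 2 ^ I.card := by
  classical
  have h1 : ∑ U ∈ I.powerset, chi U c * chi U y = ∏ i ∈ I, (1 + spin (c i) * spin (y i)) := by
    rw [Finset.prod_one_add]
    refine Finset.sum_congr rfl fun U _ => ?_
    unfold chi
    rw [Finset.prod_mul_distrib]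
  rw [h1]
  by_cases h : ∀ i ∈ I, y i = c i
  · rw [if_pos h]
    have h2 : ∏ i ∈ I, (1 + spin (c i) * spin (y i)) = 2 ^ I.card := by
      rw [Finset.prod_congr rfl (g := fun _ => (2 : ℝ))]
      · simp
      · intro i hi
        rw [h i hi, spin_sq]
        norm_num
    rw [h2]
    field_simp
  · rw [if_neg h]
    push Not at h
    obtain ⟨i, hi, hne⟩ := h
    rw [Finset.prod_eq_zero hi]
    · simp
    · cases hy : y i <;> cases hc : c i <;> simp_all [spin]

/-- Alternating sums over subcubes of dimension above the degree vanish. -/
lemma alt_sum_zero {d : ℕ} (f : (Fin n → Bool) → ℝ)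
    (hdeg : ∀ S : Finset (Fin n), d < S.card → fhat f S = 0)
    (T : Finset (Fin n)) (hT : d < T.card) (c : Fin n → Bool) :
    ∑ y : Fin n → Bool, (if ∀ i ∈ Tᶜ, y i = c i then (1 : ℝ) else 0) * (chi T y * f y) = 0 := by
  classical
  have h1 : ∀ y : Fin n → Bool, (if ∀ i ∈ Tᶜ, y i = c i then (1 : ℝ) else 0) * (chi T y * f y)
      = (∑ U ∈ (Tᶜ).powerset, chi U c * (f y * chi (T ∪ U) y)) / 2 ^ (Tᶜ).card := by
    intro y
    rw [cell_expand, Finset.sum_div, Finset.sum_div, Finset.sum_mul]
    refine Finset.sum_congr rfl fun U hU => ?_
    have hdisj : Disjoint T U := by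
      rw [Finset.mem_powerset] at hU
      exact Finset.disjoint_of_subset_right hU disjoint_compl_right
    have h2 : chi (T ∪ U) y = chi T y * chi U y := by
      unfold chi
      rw [Finset.prod_union hdisj]
    rw [h2]
    ring
  simp_rw [h1]
  rw [← Finset.sum_div, Finset.sum_comm]
  have h3 : ∀ U ∈ (Tᶜ).powerset,
      ∑ y : Fin n → Bool, chi U c * (f y * chi (T ∪ U) y) = 0 := by
    intro U _
    rw [← Finset.mul_sum]
    have h4 : ∑ y : Fin n → Bool, f y * chi (T ∪ U) y = 2 ^ n * fhat f (T ∪ U) := by
      unfold fhat
      field_simp
    rw [h4, hdeg (T ∪ U) (lt_of_lt_of_le hT (Finset.card_le_card Finset.subset_union_left))]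
    ring
  rw [Finset.sum_eq_zero h3]
  simp

lemma chi_sq (T : Finset (Fin n)) (x : Fin n → Bool) : chi T x * chi T x = 1 := by
  unfold chi
  rw [← Finset.prod_mul_distrib]
  exact Finset.prod_eq_one fun i _ => spin_sq _

/-- A sensitive block has at most as many coordinates as the degree. -/
theorem block_card_le {d : ℕ} (f : (Fin n → Bool) → ℝ) (hf : ∀ x, f x = 1 ∨ f x = -1)
    (hdeg : ∀ S : Finset (Fin n), d < S.card → fhat f S = 0)
    (x : Fin n → Bool) (T : Finset (Fin n))
    (hT : ∀ y : Fin n → Bool, (∀ i ∉ T, y i = x i) → y ≠ x → f y = - f x) :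
    T.card ≤ d := by
  classical
  by_contra hcon
  push Not at hcon
  have hne : T.Nonempty := by
    rw [← Finset.card_pos]
    omega
  have h0 := alt_sum_zero f hdeg T hcon x
  have hsplit : ∀ y : Fin n → Bool,
      (if ∀ i ∈ Tᶜ, y i = x i then (1 : ℝ) else 0) * (chi T y * f y)
        = - f x * ((if ∀ i ∈ Tᶜ, y i = x i then (1 : ℝ) else 0) * chi T y)
          + (if y = x then 2 * f x * chi T x else 0) := by
    intro y
    by_cases hyx : y = x
    · subst hyx
      simp
      ring
    · rw [if_neg hyx]
      by_cases hc : ∀ i ∈ Tᶜ, y i = x i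
      · rw [if_pos hc]
        have : f y = - f x := hT y (fun i hi => hc i (by simpa using hi)) hyx
        rw [this]
        ring
      · rw [if_neg hc]
        ring
  simp_rw [hsplit] at h0
  rw [Finset.sum_add_distrib, ← Finset.mul_sum, Finset.sum_ite_eq' Finset.univ x] at h0
  have h1 := sum_cell_chi (Tᶜ) T x
  have hnot : ¬ T ⊆ Tᶜ := by
    obtain ⟨i, hi⟩ := hne
    intro hs
    have := hs hi
    simp [hi] at this
  rw [if_neg hnot] at h1
  have h2 : ∑ y : Fin n → Bool, (if ∀ i ∈ Tᶜ, y i = x i then (1 : ℝ) else 0) * chi T y = 0 := by
    have hpos : (2 : ℝ) ^ n ≠ 0 := by positivity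
    have hzero : (0 : ℝ) / 2 ^ (Tᶜ).card = 0 := by simp
    rw [hzero] at h1
    rcases div_eq_zero_iff.mp h1 with h | h
    · exact h
    · exact absurd h hpos
  rw [h2] at h0
  simp only [Finset.mem_univ, if_true, mul_zero, zero_add] at h0
  have h3 : (2 * f x * chi T x) * (2 * f x * chi T x) = 4 := by
    have h4 : f x * f x = 1 := by
      rcases hf x with h | h <;> rw [h] <;> norm_num
    have h5 := chi_sq T x
    calc (2 * f x * chi T x) * (2 * f x * chi T x)
        = 4 * (f x * f x) * (chi T x * chi T x) := by ring
      _ = 4 := by rw [h4, h5]; ring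
  rw [h0] at h3
  norm_num at h3


/-! ### Bessel and the vanishing of irrelevant coefficients -/

/-- Bessel's inequality at the first level. -/
lemma bessel_first (f : (Fin n → Bool) → ℝ) (hf : ∀ x, f x = 1 ∨ f x = -1) :
    ∑ i, (fhat f {i}) ^ 2 ≤ 1 := by
  classical
  set b : Fin n → ℝ := fun i => fhat f {i} with hb
  have hpos : (0 : ℝ) < 2 ^ n := by positivity
  have h1 : ∑ x : Fin n → Bool, f x * f x = 2 ^ n := by
    have : ∀ x : Fin n → Bool, f x * f x = 1 := by
      intro x
      rcases hf x with h | h <;> rw [h] <;> norm_num
    simp [this]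
  have h2 : ∑ x : Fin n → Bool, f x * ∑ i, b i * spin (x i) = 2 ^ n * ∑ i, b i ^ 2 := by
    simp_rw [Finset.mul_sum]
    rw [Finset.sum_comm]
    refine Finset.sum_congr rfl fun i _ => ?_
    have h3 : ∑ x : Fin n → Bool, f x * spin (x i) = 2 ^ n * b i := by
      simp only [hb]
      unfold fhat
      simp_rw [chi_singleton]
      field_simp
    calc ∑ x : Fin n → Bool, f x * (b i * spin (x i))
        = b i * ∑ x : Fin n → Bool, f x * spin (x i) := by
          rw [Finset.mul_sum]
          refine Finset.sum_congr rfl fun x _ => ?_
          ring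
      _ = 2 ^ n * b i ^ 2 := by rw [h3]; ring
  have h4 : ∑ x : Fin n → Bool, (∑ i, b i * spin (x i)) * (∑ i, b i * spin (x i))
      = 2 ^ n * ∑ i, b i ^ 2 := by
    simp_rw [Finset.sum_mul_sum]
    rw [Finset.sum_comm]
    rw [Finset.mul_sum]
    refine Finset.sum_congr rfl fun i _ => ?_
    rw [Finset.sum_comm]
    rw [Finset.sum_eq_single i]
    · have : ∀ x : Fin n → Bool, b i * spin (x i) * (b i * spin (x i)) = b i ^ 2 := by
        intro x
        have := spin_sq (x i)
        calc b i * spin (x i) * (b i * spin (x i)) = b i ^ 2 * (spin (x i) * spin (x i)) := by ring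
          _ = b i ^ 2 := by rw [this]; ring
      simp [this]
    · intro k _ hk
      have h5 : ∑ x : Fin n → Bool, chi {i, k} x = 0 :=
        sum_chi_of_nonempty _ ⟨i, by simp⟩
      have h6 : ∀ x : Fin n → Bool, b i * spin (x i) * (b k * spin (x k))
          = b i * b k * chi {i, k} x := by
        intro x
        rw [chi_pair (Ne.symm hk)]
        ring
      simp_rw [h6]
      rw [← Finset.mul_sum, h5]
      ring
    · simp
  have h7 : 0 ≤ ∑ x : Fin n → Bool, (f x - ∑ i, b i * spin (x i)) * (f x - ∑ i, b i * spin (x i)) :=
    Finset.sum_nonneg fun x _ => mul_self_nonneg _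
  have h8 : ∑ x : Fin n → Bool, (f x - ∑ i, b i * spin (x i)) * (f x - ∑ i, b i * spin (x i))
      = ∑ x : Fin n → Bool, f x * f x - 2 * ∑ x : Fin n → Bool, f x * ∑ i, b i * spin (x i)
        + ∑ x : Fin n → Bool, (∑ i, b i * spin (x i)) * (∑ i, b i * spin (x i)) := by
    rw [Finset.mul_sum, ← Finset.sum_sub_distrib, ← Finset.sum_add_distrib]
    refine Finset.sum_congr rfl fun x _ => ?_
    ring
  rw [h8, h1, h2, h4] at h7
  have h9 : (0 : ℝ) ≤ 2 ^ n * (1 - ∑ i, b i ^ 2) := by
    nlinarith
  have h10 := nonneg_of_mul_nonneg_right h9 hpos
  linarith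

/-- The first-level coefficient of an irrelevant coordinate vanishes. -/
lemma fhat_singleton_zero (f : (Fin n → Bool) → ℝ) (i : Fin n)
    (h : ∀ x, f (Function.update x i true) = f (Function.update x i false)) :
    fhat f {i} = 0 := by
  classical
  have hinv : Function.Involutive (fun x : Fin n → Bool => Function.update x i (!x i)) := by
    intro x
    funext j
    by_cases hj : j = i
    · subst hj; simp
    · simp [Function.update_of_ne hj]
  have hsum := Equiv.sum_comp (Function.Involutive.toPerm _ hinv) (fun x : Fin n → Bool => f x * spin (x i))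
  have hf : ∀ x : Fin n → Bool, f (Function.update x i (!x i)) = f x := by
    intro x
    have h1 : x = Function.update x i (x i) := (Function.update_eq_self i x).symm
    cases hx : x i
    · conv_rhs => rw [h1, hx]
      simpa using h x
    · conv_rhs => rw [h1, hx]
      simpa using (h x).symm
  have hspin : ∀ b : Bool, spin (!b) = - spin b := by
    intro b; cases b <;> simp [spin]
  have hterm : ∀ x : Fin n → Bool, f (Function.Involutive.toPerm _ hinv x) * spin ((Function.Involutive.toPerm _ hinv x) i)
      = - (f x * spin (x i)) := by
    intro x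
    simp only [Function.Involutive.coe_toPerm, Function.update_self]
    rw [hf, hspin]
    ring
  simp_rw [hterm] at hsum
  rw [Finset.sum_neg_distrib] at hsum
  have hzero : ∑ x : Fin n → Bool, f x * spin (x i) = 0 := by linarith
  unfold fhat
  simp_rw [chi_singleton]
  rw [hzero]
  simp

/-- If every coordinate outside `R` is irrelevant, the squared first-level `ℓ¹` norm is at most `|R|`. -/
lemma first_level_sq_le_card (f : (Fin n → Bool) → ℝ) (hf : ∀ x, f x = 1 ∨ f x = -1)
    (R : Finset (Fin n))
    (hR : ∀ i ∉ R, ∀ x, f (Function.update x i true) = f (Function.update x i false)) :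
    (∑ i, |fhat f {i}|) ^ 2 ≤ R.card := by
  classical
  have h1 : ∑ i, |fhat f {i}| = ∑ i ∈ R, |fhat f {i}| := by
    symm
    apply Finset.sum_subset (Finset.subset_univ R)
    intro i _ hi
    rw [fhat_singleton_zero f i (hR i hi)]
    simp
  rw [h1]
  have h2 := sq_sum_le_card_mul_sum_sq (s := R) (f := fun i => |fhat f {i}|)
  have h3 : ∑ i ∈ R, |fhat f {i}| ^ 2 ≤ 1 := by
    calc ∑ i ∈ R, |fhat f {i}| ^ 2 = ∑ i ∈ R, (fhat f {i}) ^ 2 := by simp_rw [sq_abs]
      _ ≤ ∑ i, (fhat f {i}) ^ 2 :=
          Finset.sum_le_sum_of_subset_of_nonneg (Finset.subset_univ R) (fun _ _ _ => sq_nonneg _)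
      _ ≤ 1 := bessel_first f hf
  calc (∑ i ∈ R, |fhat f {i}|) ^ 2 ≤ R.card * ∑ i ∈ R, |fhat f {i}| ^ 2 := h2
    _ ≤ R.card * 1 := by gcongr
    _ = R.card := by ring

/-! ### Threshold functions -/

section Threshold

variable (a : Fin n → ℝ)

/-- The linear form of the threshold function. -/
noncomputable def tval (x : Fin n → Bool) : ℝ := ∑ i, a i * spin (x i)

lemma spin_ne (b : Bool) : spin b ≠ 0 := by cases b <;> simp [spin]

lemma spin_neg_of_ne {b c : Bool} (h : b ≠ c) : spin c = - spin b := by
  cases b <;> cases c <;> simp_all [spin]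

/-- The ends of a pivotal edge of a threshold function: the upper end is a block for the
coordinates pushing it up. -/
lemma tval_diff_of_ne {P y : Fin n → Bool} {lo : ℝ} {T : Finset (Fin n)}
    (hT : ∀ j ∈ T, lo ≤ a j * spin (P j)) (hPos : ∀ j ∈ T, 0 ≤ a j * spin (P j))
    (hy : ∀ i ∉ T, y i = P i) (hne : y ≠ P) :
    tval a y + 2 * lo ≤ tval a P := by
  classical
  obtain ⟨j0, hj0⟩ : ∃ j, y j ≠ P j := by
    by_contra hcon
    push Not at hcon
    exact hne (funext hcon)
  have hj0T : j0 ∈ T := by
    by_contra h
    exact hj0 (hy j0 h)
  have hterm : ∀ j, 0 ≤ a j * spin (P j) - a j * spin (y j) := by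
    intro j
    by_cases hj : y j = P j
    · rw [hj]; simp
    · have hjT : j ∈ T := by
        by_contra h
        exact hj (hy j h)
      rw [spin_neg_of_ne (Ne.symm hj)]
      have := hPos j hjT
      nlinarith
  have h1 : tval a P - tval a y = ∑ j, (a j * spin (P j) - a j * spin (y j)) := by
    unfold tval
    rw [Finset.sum_sub_distrib]
  have h2 : a j0 * spin (P j0) - a j0 * spin (y j0) ≤ ∑ j, (a j * spin (P j) - a j * spin (y j)) :=
    Finset.single_le_sum (fun j _ => hterm j) (Finset.mem_univ j0)
  have h3 : 2 * lo ≤ a j0 * spin (P j0) - a j0 * spin (y j0) := by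
    rw [spin_neg_of_ne (Ne.symm hj0)]
    have := hT j0 hj0T
    linarith
  linarith

end Threshold

/-- **Degree of threshold functions.**  A linear threshold function depending on `r` coordinates has
degree at least `(r+1)/2`. -/
theorem threshold_relevant_card_le {d : ℕ} (a : Fin n → ℝ) (θ : ℝ) (f : (Fin n → Bool) → ℝ)
    (hf : ∀ x, f x = if θ ≤ ∑ i, a i * spin (x i) then 1 else -1)
    (hdeg : ∀ S : Finset (Fin n), d < S.card → fhat f S = 0)
    (R : Finset (Fin n)) (hR : ∀ i ∈ R, ∃ x, f (Function.update x i true) ≠ f (Function.update x i false)) :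
    R.card ≤ 2 * d - 1 := by
  classical
  have hB : ∀ x, f x = 1 ∨ f x = -1 := by
    intro x
    rw [hf x]
    split_ifs <;> simp
  rcases R.eq_empty_or_nonempty with hemp | hne
  · simp [hemp]
  -- coordinates in `R` have nonzero weight
  have hval : ∀ x, f x = if θ ≤ tval a x then 1 else -1 := hf
  have hupd : ∀ (x : Fin n → Bool) (i : Fin n) (b c : Bool),
      tval a (Function.update x i b) - tval a (Function.update x i c)
        = a i * spin b - a i * spin c := by
    intro x i b c
    unfold tval
    rw [← Finset.sum_sub_distrib, Finset.sum_eq_single i]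
    · simp
    · intro j _ hj
      simp [Function.update_of_ne hj]
    · simp
  have hRa : ∀ i ∈ R, a i ≠ 0 := by
    intro i hi h0
    obtain ⟨x, hx⟩ := hR i hi
    apply hx
    have := hupd x i true false
    rw [h0] at this
    simp only [zero_mul, sub_zero] at this
    have h2 : tval a (Function.update x i true) = tval a (Function.update x i false) := by linarith
    rw [hval, hval, h2]
  -- a relevant coordinate of smallest weight
  obtain ⟨w, hwR, hwmin⟩ := Finset.exists_min_image R (fun i => |a i|) hne
  obtain ⟨x, hx⟩ := hR w hwR
  -- the two ends of the edge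
  obtain ⟨P, Q, hPQ, hPw, hPθ, hQθ⟩ : ∃ P Q : Fin n → Bool,
      (∀ j, j ≠ w → P j = Q j) ∧ P w ≠ Q w ∧ θ ≤ tval a P ∧ tval a Q < θ := by
    by_cases h1 : θ ≤ tval a (Function.update x w true)
    · by_cases h2 : θ ≤ tval a (Function.update x w false)
      · exfalso
        apply hx
        rw [hval, hval, if_pos h1, if_pos h2]
      · refine ⟨Function.update x w true, Function.update x w false, ?_, by simp, h1, not_le.mp h2⟩
        intro j hj
        simp [Function.update_of_ne hj]
    · by_cases h2 : θ ≤ tval a (Function.update x w false)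
      · refine ⟨Function.update x w false, Function.update x w true, ?_, by simp, h2, not_le.mp h1⟩
        intro j hj
        simp [Function.update_of_ne hj]
      · exfalso
        apply hx
        rw [hval, hval, if_neg h1, if_neg h2]
  have hdiff : tval a P - tval a Q = a w * spin (P w) - a w * spin (Q w) := by
    unfold tval
    rw [← Finset.sum_sub_distrib, Finset.sum_eq_single w]
    · intro j _ hj
      rw [hPQ j hj]
      ring
    · simp
  have hQw : spin (Q w) = - spin (P w) := spin_neg_of_ne hPw
  have hPpos : 0 < a w * spin (P w) := by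
    rw [hQw] at hdiff
    have : 0 < tval a P - tval a Q := by linarith
    rw [hdiff] at this
    linarith
  have hspinabs : ∀ (j : Fin n) (b : Bool), 0 < a j * spin b → a j * spin b = |a j| := by
    intro j b hb
    cases b
    · simp only [spin, Bool.false_eq_true, if_false] at hb ⊢
      rw [abs_of_neg (by linarith)]
      ring
    · simp only [spin, if_true] at hb ⊢
      rw [abs_of_pos (by linarith)]
      ring
  have hgap : tval a P - tval a Q = 2 * |a w| := by
    rw [hdiff, hQw, ← hspinabs w (P w) hPpos]
    ring
  -- the blocks
  set TP : Finset (Fin n) := R.filter (fun j => 0 < a j * spin (P j)) with hTP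
  set TQ : Finset (Fin n) := R.filter (fun j => 0 < a j * spin (!(Q j))) with hTQ
  have hnotspin : ∀ b : Bool, spin (!b) = - spin b := by
    intro b; cases b <;> simp [spin]
  have hTPcard : TP.card ≤ d := by
    apply block_card_le f hB hdeg P TP
    intro y hy hne
    have h1 : tval a y + 2 * |a w| ≤ tval a P := by
      apply tval_diff_of_ne a _ _ hy hne
      · intro j hj
        rw [hTP, Finset.mem_filter] at hj
        rw [hspinabs j _ hj.2]
        exact hwmin j hj.1
      · intro j hj
        rw [hTP, Finset.mem_filter] at hj
        exact hj.2.le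
    have h2 : tval a y < θ := by linarith
    rw [hval y, hval P, if_neg (not_le.mpr h2), if_pos hPθ]
  have hTQcard : TQ.card ≤ d := by
    apply block_card_le f hB hdeg Q TQ
    intro y hy hne
    -- apply the estimate to the form with the opposite weights
    have h1 : tval (fun i => - a i) y + 2 * |a w| ≤ tval (fun i => - a i) Q := by
      apply tval_diff_of_ne (fun i => - a i) _ _ hy hne
      · intro j hj
        rw [hTQ, Finset.mem_filter, hnotspin] at hj
        have h3 : 0 < a j * spin (!(Q j)) := by
          rw [hnotspin]; linarith [hj.2]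
        have h4 := hspinabs j _ h3
        rw [hnotspin] at h4
        have h5 := hwmin j hj.1
        linarith
      · intro j hj
        rw [hTQ, Finset.mem_filter, hnotspin] at hj
        linarith [hj.2]
    have hneg : ∀ z, tval (fun i => - a i) z = - tval a z := by
      intro z
      unfold tval
      rw [← Finset.sum_neg_distrib]
      refine Finset.sum_congr rfl fun i _ => ?_
      ring
    rw [hneg, hneg] at h1
    have h2 : θ ≤ tval a y := by linarith
    rw [hval y, hval Q, if_pos h2, if_neg (not_le.mpr hQθ)]
    norm_num
  -- the blocks cover `R` and share `w`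
  have hcover : R ⊆ TP ∪ TQ := by
    intro j hj
    rw [Finset.mem_union, hTP, hTQ, Finset.mem_filter, Finset.mem_filter]
    by_cases hjw : j = w
    · subst hjw
      exact Or.inl ⟨hj, hPpos⟩
    · have h1 : a j * spin (P j) ≠ 0 := mul_ne_zero (hRa j hj) (spin_ne _)
      rcases lt_or_gt_of_ne h1 with h2 | h2
      · right
        refine ⟨hj, ?_⟩
        rw [hnotspin, ← hPQ j hjw]
        linarith
      · exact Or.inl ⟨hj, h2⟩
  have hinter : w ∈ TP ∩ TQ := by
    rw [Finset.mem_inter, hTP, hTQ, Finset.mem_filter, Finset.mem_filter]
    refine ⟨⟨hwR, hPpos⟩, hwR, ?_⟩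
    rw [hnotspin, hQw]
    linarith
  have hcard : R.card + 1 ≤ TP.card + TQ.card := by
    have h1 : (TP ∪ TQ).card + (TP ∩ TQ).card = TP.card + TQ.card :=
      Finset.card_union_add_card_inter TP TQ
    have h2 : R.card ≤ (TP ∪ TQ).card := Finset.card_le_card hcover
    have h3 : 1 ≤ (TP ∩ TQ).card := Finset.card_pos.mpr ⟨w, hinter⟩
    omega
  omega

/-- The first-level bound for threshold functions. -/
theorem threshold_first_level {d : ℕ} (a : Fin n → ℝ) (θ : ℝ) (f : (Fin n → Bool) → ℝ)
    (hf : ∀ x, f x = if θ ≤ ∑ i, a i * spin (x i) then 1 else -1)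
    (hdeg : ∀ S : Finset (Fin n), d < S.card → fhat f S = 0) :
    (∑ i, |fhat f {i}|) ^ 2 ≤ ((2 * d - 1 : ℕ) : ℝ) := by
  classical
  have hB : ∀ x, f x = 1 ∨ f x = -1 := by
    intro x
    rw [hf x]
    split_ifs <;> simp
  set R : Finset (Fin n) := Finset.univ.filter
    (fun i => ∃ x, f (Function.update x i true) ≠ f (Function.update x i false)) with hRdef
  have h1 : R.card ≤ 2 * d - 1 := by
    apply threshold_relevant_card_le a θ f hf hdeg R
    intro i hi
    rw [hRdef, Finset.mem_filter] at hi
    exact hi.2
  have h2 : (∑ i, |fhat f {i}|) ^ 2 ≤ R.card := by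
    apply first_level_sq_le_card f hB R
    intro i hi x
    by_contra hne
    apply hi
    rw [hRdef, Finset.mem_filter]
    exact ⟨Finset.mem_univ i, x, hne⟩
  calc (∑ i, |fhat f {i}|) ^ 2 ≤ R.card := h2
    _ ≤ ((2 * d - 1 : ℕ) : ℝ) := by exact_mod_cast h1


/-! ### Regular functions: chains in the dominance order -/

/-- `Dom f s i j`: coordinate `i` dominates coordinate `j`, for a function increasing in the
directions `s`: moving an up-bit from `j` to `i` does not decrease `f`. -/
def Dom (f : (Fin n → Bool) → ℝ) (s : Fin n → Bool) (i j : Fin n) : Prop :=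
  ∀ x : Fin n → Bool, x i ≠ s i → x j = s j →
    f x ≤ f (Function.update (Function.update x i (s i)) j (!s j))

/-- Dominance is transitive, for functions increasing in the directions `s`. -/
lemma Dom.trans' {f : (Fin n → Bool) → ℝ} {s : Fin n → Bool}
    {i j k : Fin n} (hij : Dom f s i j) (hjk : Dom f s j k) (hik' : i ≠ k) (hij' : i ≠ j)
    (hjk' : j ≠ k) : Dom f s i k := by
  intro x hxi hxk
  by_cases hxj : x j = s j
  · -- move the bit from `j`... first `k` to `j` is impossible: `j` is up; use `i ≥ j` at `k` up
    have h1 := hij x hxi hxj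
    -- now `j` is down, `i` up, `k` up; move from `k` to `j`
    set y := Function.update (Function.update x i (s i)) j (!s j) with hy
    have hyj : y j ≠ s j := by simp [hy]
    have hyk : y k = s k := by
      simp [hy, Function.update_of_ne hjk'.symm, Function.update_of_ne hik'.symm, hxk]
    have h2 := hjk y hyj hyk
    have h3 : Function.update (Function.update y j (s j)) k (!s k)
        = Function.update (Function.update x i (s i)) k (!s k) := by
      funext t
      by_cases htk : t = k
      · subst htk; simp
      · by_cases htj : t = j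
        · subst htj
          have hti' : t ≠ i := fun h => hij' h.symm
          simp [hy, Function.update_of_ne htk, Function.update_of_ne hti', hxj]
        · by_cases hti : t = i
          · subst hti
            simp [hy, Function.update_of_ne htk, Function.update_of_ne htj]
          · simp [hy, Function.update_of_ne htk, Function.update_of_ne htj, Function.update_of_ne hti]
    rw [h3] at h2
    exact h1.trans h2
  · -- `j` is down: move from `k` to `j`, then from `j` to `i`
    have h1 := hjk x hxj hxk
    set y := Function.update (Function.update x j (s j)) k (!s k) with hy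
    have hyi : y i ≠ s i := by
      simp [hy, Function.update_of_ne hik', Function.update_of_ne hij', hxi]
    have hyj : y j = s j := by
      simp [hy, Function.update_of_ne hjk']
    have h2 := hij y hyi hyj
    have h3 : Function.update (Function.update y i (s i)) j (!s j)
        = Function.update (Function.update x i (s i)) k (!s k) := by
      funext t
      by_cases htj : t = j
      · subst htj
        simp [Function.update_of_ne hjk', Function.update_of_ne hij'.symm, hxj]
        cases hs : s t <;> simp_all
      · by_cases hti : t = i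
        · subst hti
          simp [Function.update_of_ne htj, Function.update_of_ne hik']
        · by_cases htk : t = k
          · subst htk
            simp [hy, Function.update_of_ne htj, Function.update_of_ne hti]
          · simp [hy, Function.update_of_ne htj, Function.update_of_ne hti, Function.update_of_ne htk]
    rw [h3] at h2
    exact h1.trans h2

/-- A nonempty finite set on which dominance is total has an element dominated by all others. -/
lemma exists_weakest {f : (Fin n → Bool) → ℝ} {s : Fin n → Bool} (C : Finset (Fin n))
    (hC : ∀ i ∈ C, ∀ j ∈ C, i ≠ j → Dom f s i j ∨ Dom f s j i) (hne : C.Nonempty) :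
    ∃ w ∈ C, ∀ j ∈ C, j ≠ w → Dom f s j w := by
  classical
  induction C using Finset.induction_on with
  | empty => simp at hne
  | insert a C ha ih =>
    rcases C.eq_empty_or_nonempty with hemp | hne2
    · subst hemp
      refine ⟨a, by simp, ?_⟩
      intro j hj hja
      simp at hj
      exact absurd hj hja
    · obtain ⟨w, hw, hwmin⟩ := ih (fun i hi j hj hij =>
        hC i (Finset.mem_insert_of_mem hi) j (Finset.mem_insert_of_mem hj) hij) hne2
      have hwa : a ≠ w := fun h => ha (h ▸ hw)
      rcases hC a (Finset.mem_insert_self _ _) w (Finset.mem_insert_of_mem hw) hwa with h | h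
      · refine ⟨w, Finset.mem_insert_of_mem hw, ?_⟩
        intro j hj hjw
        rcases Finset.mem_insert.mp hj with rfl | hj
        · exact h
        · exact hwmin j hj hjw
      · refine ⟨a, Finset.mem_insert_self _ _, ?_⟩
        intro j hj hja
        rcases Finset.mem_insert.mp hj with rfl | hj
        · exact absurd rfl hja
        · by_cases hjw : j = w
          · subst hjw; exact h
          · exact (hwmin j hj hjw).trans' h hja hjw hwa.symm

/-- Relevant coordinates in a dominance chain number at most `2 d - 1`. -/
theorem chain_relevant_card_le {d : ℕ} (f : (Fin n → Bool) → ℝ) (hB : ∀ x, f x = 1 ∨ f x = -1)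
    (hdeg : ∀ S : Finset (Fin n), d < S.card → fhat f S = 0) (s : Fin n → Bool)
    (hmono : ∀ x y : Fin n → Bool, (∀ i, x i = y i ∨ y i = s i) → f x ≤ f y)
    (C : Finset (Fin n)) (hC : ∀ i ∈ C, ∀ j ∈ C, i ≠ j → Dom f s i j ∨ Dom f s j i)
    (hR : ∀ i ∈ C, ∃ x, f (Function.update x i true) ≠ f (Function.update x i false)) :
    C.card ≤ 2 * d - 1 := by
  classical
  rcases C.eq_empty_or_nonempty with hemp | hne
  · simp [hemp]
  obtain ⟨w, hwC, hwmin⟩ := exists_weakest C hC hne
  obtain ⟨x, hx⟩ := hR w hwC
  set P := Function.update x w (s w) with hP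
  set Q := Function.update x w (!s w) with hQ
  have hPQ : ∀ j, j ≠ w → P j = Q j := by
    intro j hj
    simp [hP, hQ, Function.update_of_ne hj]
  have hPw : P w = s w := by simp [hP]
  have hQw : Q w = !s w := by simp [hQ]
  have hQP : f Q ≤ f P := by
    apply hmono
    intro i
    by_cases hi : i = w
    · subst hi; right; exact hPw
    · left; exact (hPQ i hi).symm
  have hne' : f P ≠ f Q := by
    intro h
    apply hx
    cases hs : s w
    · have h1 : Function.update x w true = Q := by simp [hQ, hs]
      have h2 : Function.update x w false = P := by simp [hP, hs]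
      rw [h1, h2, h]
    · have h1 : Function.update x w true = P := by simp [hP, hs]
      have h2 : Function.update x w false = Q := by simp [hQ, hs]
      rw [h1, h2, h]
  have hfP : f P = 1 := by
    rcases hB P with h | h
    · exact h
    · exfalso
      rcases hB Q with h2 | h2
      · rw [h, h2] at hQP; norm_num at hQP
      · exact hne' (h.trans h2.symm)
  have hfQ : f Q = -1 := by
    rcases hB Q with h | h
    · exfalso; exact hne' (hfP.trans h.symm)
    · exact h
  set TP : Finset (Fin n) := C.filter (fun j => P j = s j) with hTP
  set TQ : Finset (Fin n) := C.filter (fun j => Q j ≠ s j) with hTQ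
  have hnot : ∀ {b c : Bool}, b ≠ c → b = !c := by
    intro b c h
    cases b <;> cases c <;> simp_all
  have hTPcard : TP.card ≤ d := by
    apply block_card_le f hB hdeg P TP
    intro y hy hne
    rw [hfP]
    obtain ⟨j0, hj0⟩ : ∃ j, y j ≠ P j := by
      by_contra hcon
      push Not at hcon
      exact hne (funext hcon)
    have hj0T : j0 ∈ TP := by
      by_contra h
      exact hj0 (hy j0 h)
    have hmem := Finset.mem_filter.mp hj0T
    have hyj0 : y j0 = !s j0 := hnot (by rw [← hmem.2]; exact hj0)
    have hle : f y ≤ f Q := by
      by_cases hj0w : j0 = w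
      · subst hj0w
        apply hmono
        intro i
        by_cases hi : i = j0
        · subst hi; left; rw [hyj0, hQw]
        · by_cases hiT : i ∈ TP
          · right
            rw [← hPQ i hi]
            exact (Finset.mem_filter.mp hiT).2
          · left
            rw [hy i hiT, hPQ i hi]
      · set y0 := Function.update P j0 (!s j0) with hy0
        have h1 : f y ≤ f y0 := by
          apply hmono
          intro i
          by_cases hi : i = j0
          · subst hi; left; simp [hy0, hyj0]
          · by_cases hiT : i ∈ TP
            · right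
              simp only [hy0, Function.update_of_ne hi]
              exact (Finset.mem_filter.mp hiT).2
            · left
              simp only [hy0, Function.update_of_ne hi]
              exact hy i hiT
        have h2 := hwmin j0 hmem.1 hj0w y0 (by simp [hy0]) (by
          simp [hy0, Function.update_of_ne (Ne.symm hj0w), hPw])
        have h3 : Function.update (Function.update y0 j0 (s j0)) w (!s w) = Q := by
          funext t
          by_cases htw : t = w
          · subst htw; simp [hQw]
          · by_cases htj : t = j0
            · subst htj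
              simp [Function.update_of_ne htw, ← hPQ t htw, hmem.2]
            · simp [hy0, Function.update_of_ne htw, Function.update_of_ne htj, hPQ t htw]
        rw [h3] at h2
        exact h1.trans h2
    rw [hfQ] at hle
    rcases hB y with h | h
    · rw [h] at hle; norm_num at hle
    · exact h
  have hTQcard : TQ.card ≤ d := by
    apply block_card_le f hB hdeg Q TQ
    intro y hy hne
    rw [hfQ]
    obtain ⟨j0, hj0⟩ : ∃ j, y j ≠ Q j := by
      by_contra hcon
      push Not at hcon
      exact hne (funext hcon)
    have hj0T : j0 ∈ TQ := by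
      by_contra h
      exact hj0 (hy j0 h)
    have hmem := Finset.mem_filter.mp hj0T
    have hyj0 : y j0 = s j0 := by
      have h1 : Q j0 = !s j0 := hnot hmem.2
      have h2 : y j0 = !Q j0 := hnot hj0
      rw [h2, h1]; simp
    have hle : f P ≤ f y := by
      by_cases hj0w : j0 = w
      · subst hj0w
        apply hmono
        intro i
        by_cases hi : i = j0
        · subst hi; right; exact hyj0
        · by_cases hiT : i ∈ TQ
          · by_cases hyi : y i = Q i
            · left; rw [hyi, hPQ i hi]
            · right
              have h1 : Q i = !s i := hnot (Finset.mem_filter.mp hiT).2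
              have h2 : y i = !Q i := hnot hyi
              rw [h2, h1]; simp
          · left
            rw [hy i hiT, hPQ i hi]
      · set y0 := Function.update Q j0 (s j0) with hy0
        have h1 : f y0 ≤ f y := by
          apply hmono
          intro i
          by_cases hi : i = j0
          · subst hi; right; exact hyj0
          · by_cases hiT : i ∈ TQ
            · by_cases hyi : y i = Q i
              · left
                simp only [hy0, Function.update_of_ne hi]
                exact hyi.symm
              · right
                have h1 : Q i = !s i := hnot (Finset.mem_filter.mp hiT).2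
                have h2 : y i = !Q i := hnot hyi
                rw [h2, h1]; simp
            · left
              simp only [hy0, Function.update_of_ne hi]
              exact (hy i hiT).symm
        have h2 := hwmin j0 hmem.1 hj0w P (by rw [hPQ j0 hj0w]; exact hmem.2) hPw
        have h3 : Function.update (Function.update P j0 (s j0)) w (!s w) = y0 := by
          funext t
          by_cases htw : t = w
          · subst htw
            simp [hy0, Function.update_of_ne (Ne.symm hj0w), hQw]
          · by_cases htj : t = j0
            · subst htj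
              simp [hy0, Function.update_of_ne htw]
            · simp [hy0, Function.update_of_ne htw, Function.update_of_ne htj, hPQ t htw]
        rw [h3] at h2
        exact h2.trans h1
    rw [hfP] at hle
    rcases hB y with h | h
    · rw [h]; norm_num
    · rw [h] at hle; norm_num at hle
  have hcover : C ⊆ TP ∪ TQ := by
    intro j hj
    rw [Finset.mem_union, hTP, hTQ, Finset.mem_filter, Finset.mem_filter]
    by_cases hjw : j = w
    · subst hjw
      exact Or.inl ⟨hj, hPw⟩
    · by_cases h : P j = s j
      · exact Or.inl ⟨hj, h⟩
      · right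
        refine ⟨hj, ?_⟩
        rw [← hPQ j hjw]
        exact h
  have hinter : w ∈ TP ∩ TQ := by
    rw [Finset.mem_inter, hTP, hTQ, Finset.mem_filter, Finset.mem_filter]
    refine ⟨⟨hwC, hPw⟩, hwC, ?_⟩
    rw [hQw]
    cases s w <;> simp
  have hcard : C.card + 1 ≤ TP.card + TQ.card := by
    have h1 : (TP ∪ TQ).card + (TP ∩ TQ).card = TP.card + TQ.card :=
      Finset.card_union_add_card_inter TP TQ
    have h2 : C.card ≤ (TP ∪ TQ).card := Finset.card_le_card hcover
    have h3 : 1 ≤ (TP ∩ TQ).card := Finset.card_pos.mpr ⟨w, hinter⟩
    omega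
  omega

/-- **First-level bound through dominance chains.**  If the relevant coordinates of a Boolean
function, increasing in the directions `s`, are covered by `W` dominance chains, then the squared
first-level `ℓ¹` norm is at most `W (2 deg f - 1)`. -/
theorem chains_first_level {d W : ℕ} (f : (Fin n → Bool) → ℝ) (hB : ∀ x, f x = 1 ∨ f x = -1)
    (hdeg : ∀ S : Finset (Fin n), d < S.card → fhat f S = 0) (s : Fin n → Bool)
    (hmono : ∀ x y : Fin n → Bool, (∀ i, x i = y i ∨ y i = s i) → f x ≤ f y)
    (C : Fin W → Finset (Fin n))
    (hC : ∀ k, ∀ i ∈ C k, ∀ j ∈ C k, i ≠ j → Dom f s i j ∨ Dom f s j i)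
    (hcover : ∀ i, (∃ x, f (Function.update x i true) ≠ f (Function.update x i false)) →
      ∃ k, i ∈ C k) :
    (∑ i, |fhat f {i}|) ^ 2 ≤ ((W * (2 * d - 1) : ℕ) : ℝ) := by
  classical
  set R : Finset (Fin n) := Finset.univ.filter
    (fun i => ∃ x, f (Function.update x i true) ≠ f (Function.update x i false)) with hRdef
  have hmemR : ∀ i, i ∈ R ↔ ∃ x, f (Function.update x i true) ≠ f (Function.update x i false) := by
    intro i
    rw [hRdef, Finset.mem_filter]
    simp
  have h1 : R.card ≤ W * (2 * d - 1) := by
    have hsub : R ⊆ Finset.univ.biUnion (fun k => (C k).filter (fun i => i ∈ R)) := by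
      intro i hi
      obtain ⟨k, hk⟩ := hcover i ((hmemR i).mp hi)
      rw [Finset.mem_biUnion]
      exact ⟨k, Finset.mem_univ k, Finset.mem_filter.mpr ⟨hk, hi⟩⟩
    calc R.card ≤ (Finset.univ.biUnion (fun k => (C k).filter (fun i => i ∈ R))).card :=
          Finset.card_le_card hsub
      _ ≤ ∑ k, ((C k).filter (fun i => i ∈ R)).card := Finset.card_biUnion_le
      _ ≤ ∑ _k : Fin W, (2 * d - 1) := by
          apply Finset.sum_le_sum
          intro k _
          apply chain_relevant_card_le f hB hdeg s hmono
          · intro i hi j hj hij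
            exact hC k i (Finset.mem_filter.mp hi).1 j (Finset.mem_filter.mp hj).1 hij
          · intro i hi
            exact (hmemR i).mp (Finset.mem_filter.mp hi).2
      _ = W * (2 * d - 1) := by simp
  have h2 : (∑ i, |fhat f {i}|) ^ 2 ≤ R.card := by
    apply first_level_sq_le_card f hB R
    intro i hi x
    by_contra hne
    exact hi ((hmemR i).mpr ⟨x, hne⟩)
  calc (∑ i, |fhat f {i}|) ^ 2 ≤ R.card := h2
    _ ≤ ((W * (2 * d - 1) : ℕ) : ℝ) := by exact_mod_cast h1

end Vale.Agent.P047
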